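import Vale.Agent.P256.Corner.CornerPoly

/-!
# P256: the piece at a boundary direction of a corner
-/

namespace Vale.Agent.P256

open MvPolynomial Filter Topology

variable {ι : Type} {d k : ℕ} {p : MvPolynomial ι ℝ} {e c u₀ : ι → ℝ}

/-- The inequalities of the corner lift. -/
noncomputable def cornerSet [Fintype ι] (H : MvPolynomial (Option ι) ℝ) (ε : ℝ) :
    Finset (MvPolynomial (Option ι) ℝ) :=
  open Classical in
  insert 1 (insert (X none) (insert (C ε - X none) (insert (-(X none * H))
    (Finset.univ.image fun o => X none * (C (ε ^ 2) - X o ^ 2)))))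

/-- The weighted functional `f ↦ L (σ f)`. -/
noncomputable def weighted (L : MvPolynomial (Option ι) ℝ →ₗ[ℝ] ℝ) :
    MvPolynomial (Option ι) ℝ →ₗ[ℝ] ℝ :=
  L ∘ₗ LinearMap.mulLeft ℝ (X none)

theorem weighted_apply (L : MvPolynomial (Option ι) ℝ →ₗ[ℝ] ℝ) (f : MvPolynomial (Option ι) ℝ) :
    weighted L f = L (X none * f) := rfl

theorem corner_out (L : MvPolynomial (Option ι) ℝ →ₗ[ℝ] ℝ) (c u₀ : ι → ℝ) (l : ι) :
    L (C (c l) + X none * (C (u₀ l) + X (some l))) =
      c l * L 1 + u₀ l * L (X none) + weighted L (X (some l)) := by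
  rw [weighted_apply, mul_add, map_add, map_add, mul_comm (X none) (C (u₀ l)), L_C_mul,
    ← mul_one (C (c l)), L_C_mul]
  ring

/-- The scaled mean lies in the constraint set. -/
theorem corner_jensen [Fintype ι] {F : MvPolynomial (Option ι) ℝ} {M ε D' : ℝ} {D : ℕ}
    (hM : 0 ≤ M) (hε : 0 < ε)
    (hJ : ∀ L : MvPolynomial (Option ι) ℝ →ₗ[ℝ] ℝ, L 1 = 1 → BoxPos L ε D →
      eval (fun o => L (X o)) F ≤ L F)
    (hR : ∀ a : Option ι → ℝ, (∀ o, |a o| ≤ ε) → ∀ t, 0 ≤ t → t ≤ ε →
      eval a F + t * D' ≤ eval (a + t • fun o => o.elim 1 0) F)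
    (hsmall : 3 * ε * M ≤ D')
    {L : MvPolynomial (Option ι) ℝ →ₗ[ℝ] ℝ}
    (hL : ∀ g ∈ cornerSet (F - C M * X none ^ 2) ε, ∀ f : MvPolynomial (Option ι) ℝ,
      f.totalDegree ≤ D + 1 → 0 ≤ L (g * f ^ 2))
    (hpos : 0 < L (X none)) :
    0 < L 1 ∧ L (X none) ≤ ε * L 1 ∧ (∀ o, |weighted L (X o) / L (X none)| ≤ ε) ∧
      eval (fun o : Option ι => o.elim (L (X none) / L 1)
        fun l => weighted L (X (some l)) / L (X none)) (F - C M * X none ^ 2) ≤ 0 := by
  classical
  have hone : ∀ f : MvPolynomial (Option ι) ℝ, f.totalDegree ≤ D + 1 → 0 ≤ L (f ^ 2) :=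
    fun f hf => by simpa using hL 1 (by simp [cornerSet]) f hf
  have hεmul : ∀ f : MvPolynomial (Option ι) ℝ, f.totalDegree ≤ D + 1 →
      0 ≤ L ((C ε - X none) * f ^ 2) := hL _ (by simp [cornerSet])
  have hle : L (X none) ≤ ε * L 1 := by
    have h := hεmul 1 (by simp)
    rw [one_pow, mul_one, map_sub, ← mul_one (C ε), L_C_mul] at h
    linarith
  have hL1 : 0 < L 1 := by nlinarith [hone 1 (by simp)]
  set L' := (L (X none))⁻¹ • weighted L with hL'
  have happ : ∀ f, L' f = L (X none * f) / L (X none) := fun f => by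
    rw [hL', LinearMap.smul_apply, weighted_apply, smul_eq_mul, div_eq_inv_mul]
  have hbox : BoxPos L' ε (D + 1) := boxPos_smul (fun f hf =>
    ⟨hL _ (by simp [cornerSet]) f hf, fun o => by
      rw [weighted_apply, ← mul_assoc]
      exact hL _ (by simp [cornerSet]) f hf⟩) (inv_nonneg.2 hpos.le)
  have h1 : L' 1 = 1 := by rw [happ, mul_one, div_self hpos.ne']
  have habs : ∀ o, |L' (X o)| ≤ ε := fun o =>
    abs_le_of_sq_le_sq (mean_sq_le h1 hbox (by omega) o) hε.le
  refine ⟨hL1, hle, fun o => by simpa [happ, weighted_apply] using habs o, ?_⟩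
  set b := L (X none) / L 1 with hb
  have hb0 : 0 < b := div_pos hpos hL1
  have hbε : b ≤ ε := by rw [hb, div_le_iff₀ hL1]; linarith
  set a : Option ι → ℝ := fun o => L' (X o) with ha
  have hvar : L ((X none - C b) ^ 2) = L (X none) * (a none - b) := by
    have e : ((X none : MvPolynomial (Option ι) ℝ) - C b) ^ 2 = X none * X none + C (-2 * b) * X none + C (b ^ 2) * 1 := by
      simp only [map_mul, map_neg, map_pow, map_ofNat]
      ring
    rw [e, map_add, map_add, L_C_mul, L_C_mul, show a none = L' (X none) from rfl, happ, hb]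
    field_simp
    ring
  have hge : 0 ≤ a none - b := by
    have h := hone _ ((totalDegree_ctr (fun _ : Option ι => b) none).trans (by omega))
    rw [hvar] at h
    exact nonneg_of_mul_nonneg_right h hpos
  have hsecond : L' (X none ^ 2) - b ^ 2 ≤ 3 * ε * (a none - b) := by
    have h := hεmul (X none - C b) ((totalDegree_ctr (fun _ : Option ι => b) none).trans (by omega))
    rw [sub_mul, map_sub, L_C_mul, hvar] at h
    have e : (X none : MvPolynomial (Option ι) ℝ) * (X none - C b) ^ 2 = X none * X none ^ 2 + C (-2 * b) * (X none * X none) +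
        C (b ^ 2) * X none := by
      simp only [map_mul, map_neg, map_pow, map_ofNat]
      ring
    rw [e, map_add, map_add, L_C_mul, L_C_mul] at h
    have h2 : L' (X none ^ 2) - b ^ 2 - 2 * b * (a none - b) ≤ ε * (a none - b) := by
      refine le_of_mul_le_mul_left ?_ hpos
      have han : L (X none) * (a none - b) = L (X none * X none) - L (X none) * b := by
        rw [show a none = L' (X none) from rfl, happ]
        field_simp
      rw [han] at h
      rw [ha]
      simp only [happ]
      field_simp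
      linarith
    nlinarith
  have hH : L' (F - C M * X none ^ 2) ≤ 0 := by
    rw [happ]
    refine div_nonpos_of_nonpos_of_nonneg ?_ hpos.le
    have h := hL (-(X none * (F - C M * X none ^ 2))) (by simp [cornerSet]) 1 (by simp)
    rw [one_pow, mul_one, map_neg] at h
    linarith
  rw [map_sub, L_C_mul] at hH
  have hF := hJ L' h1 fun f hf => hbox f (by omega)
  set ab : Option ι → ℝ := fun o => o.elim b fun l => weighted L (X (some l)) / L (X none)
    with hab
  have hamove : ab + (a none - b) • (fun o : Option ι => o.elim (1 : ℝ) 0) = a := funext fun o => by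
    cases o <;> simp [hab, ha, happ, weighted_apply]
  have habε : ∀ o, |ab o| ≤ ε := fun o => by
    cases o with
    | none => simpa [hab, abs_of_pos hb0] using hbε
    | some l => simpa [hab, happ, weighted_apply] using habs (some l)
  have hmono := hR ab habε _ hge (by linarith [le_of_abs_le (habs none)])
  rw [hamove] at hmono
  have hprod := mul_le_mul_of_nonneg_left hsecond hM
  have hprod2 := mul_le_mul_of_nonneg_right hsmall hge
  have ha' : eval a F ≤ L' F := hF
  rw [map_sub, map_mul, eval_C, map_pow, eval_X, show ab none = b from rfl]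
  linarith

/-- A lift inside the cone that covers the boundary near a corner in a given direction. -/
theorem corner_piece [Fintype ι] (hE : IsHyperbolic d p e) (hI : IsolatedCorners p e)
    (hc : c ∈ hypCone p e) (hc0 : c ≠ 0) (hs : IsSingularPt p c) (hk : IsMult p c k)
    (hu : u₀ ∈ hypCone (tayl p c k) e) (hg : eval u₀ (tayl p c k) = 0)
    (hperp : u₀ ⬝ᵥ c = 0) (hu0 : u₀ ≠ 0) :
    ∃ S, IsLift S ∧ S ⊆ hypCone p e ∧ ∀ᶠ z : ℝ × (ι → ℝ) in 𝓝 (0, u₀),
      0 < z.1 → z.2 ⬝ᵥ c = 0 → eval (c + z.1 • z.2) p = 0 → c + z.1 • z.2 ∈ S := by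
  classical
  obtain ⟨M, hM, hq⟩ := exists_cornerH hE hI hc hc0 hs hk hu hg hperp hu0
  set F := cornerH p c k u₀ M with hFdef
  obtain ⟨D, ε₀, hε₀, hJ⟩ := jensen hq
  set up : Option ι → ℝ := fun o => o.elim 1 0 with hup
  obtain ⟨R, hRc, hR, hR0⟩ := exists_divdiff F up
  set m := -eval u₀ (tayl p c (k + 1)) with hm
  have hm0 : 0 < m := neg_pos.2 (corner_sign hE hI hc hc0 hs hk hu hg hperp hu0)
  have hR00 : R (0, 0) = m := by rw [hR0, hFdef, hup, cornerH_up hg]
  obtain ⟨δ₁, hδ₁, hball⟩ := Metric.eventually_nhds_iff.1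
    (hRc.continuousAt.eventually (lt_mem_nhds (show m / 2 < R (0, 0) by rw [hR00]; linarith)))
  obtain ⟨δ₂, hδ₂, hnear⟩ := Metric.eventually_nhds_iff.1
    (member_near hE hc hk hu (dir_root_simple hE hI hc hc0 hs hk hu hg hperp hu0))
  set ε := min (min ε₀ (δ₁ / 2)) (min (δ₂ / 2) (m / 2 / (3 * M + 1))) with hεdef
  have hε : 0 < ε := lt_min (lt_min hε₀ (by linarith)) (lt_min (by linarith) (by positivity))
  have hεδ₁ : ε ≤ δ₁ / 2 := (min_le_left _ _).trans (min_le_right _ _)
  have hεδ₂ : ε ≤ δ₂ / 2 := (min_le_right _ _).trans (min_le_left _ _)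
  have hεM : 3 * ε * M ≤ m / 2 := by
    have h : ε ≤ m / 2 / (3 * M + 1) := (min_le_right _ _).trans (min_le_right _ _)
    rw [le_div_iff₀ (by positivity)] at h
    linarith
  obtain ⟨S, hSlift, hsound, hcomplete⟩ := exists_moment_lift
    (cornerSet (F - C M * X none ^ 2) ε)
    (fun l => C (c l) + X none * (C (u₀ l) + X (some l))) (D + 1)
  refine ⟨S, hSlift, fun y hy => ?_, ?_⟩
  · obtain ⟨L, hL, rfl⟩ := hsound y hy
    have hσnn : 0 ≤ L (X none) := by simpa using hL (X none) (by simp [cornerSet]) 1 (by simp)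
    have hL1 : 0 ≤ L 1 := by simpa using hL 1 (by simp [cornerSet]) 1 (by simp)
    rcases hσnn.eq_or_lt with hz | hpos
    · have hbox : BoxPos (weighted L) ε (D + 1) := fun f hf =>
        ⟨hL _ (by simp [cornerSet]) f hf, fun o => by
          rw [weighted_apply, ← mul_assoc]
          exact hL _ (by simp [cornerSet]) f hf⟩
      have hw := mean_zero hbox (by omega) (by rw [weighted_apply, mul_one, hz])
      have e1 : (fun l => L (C (c l) + X none * (C (u₀ l) + X (some l)))) = L 1 • c :=
        funext fun l => by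
          rw [corner_out, hw, ← hz]
          simp [mul_comm]
      rw [e1]
      exact smul_mem hE hc hL1
    · obtain ⟨hpos1, hle, habs, heval⟩ := corner_jensen (D' := m / 2) hM hε
        (hJ ε hε ((min_le_left _ _).trans (min_le_left _ _)))
        (fun a ha t ht htε => by
          rw [hR]
          have hdist : dist (a, t) ((0 : Option ι → ℝ), (0 : ℝ)) < δ₁ := by
            rw [Prod.dist_eq, dist_zero_right, dist_zero_right, max_lt_iff, Real.norm_eq_abs,
              abs_of_nonneg ht]
            refine ⟨(pi_norm_lt_iff hδ₁).2 fun o => ?_, by linarith⟩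
            rw [Real.norm_eq_abs]
            linarith [ha o]
          have := mul_le_mul_of_nonneg_left (le_of_lt (hball hdist)) ht
          linarith)
        hεM hL hpos
      set b := L (X none) / L 1 with hb
      set w : ι → ℝ := fun l => weighted L (X (some l)) / L (X none) with hw
      have hb0 : 0 < b := div_pos hpos hpos1
      have hnn : 0 ≤ locS p c k b (u₀ + w) := by
        rw [map_sub, hFdef, eval_cornerH, eval_blowPoly, map_mul, eval_C, map_pow, eval_X] at heval
        simp only [Option.elim_none, Option.elim_some] at heval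
        have : 0 ≤ M * (locS p c k b (u₀ + w) ^ 2 + (w ⬝ᵥ c) ^ 2 + (w ⬝ᵥ u₀) ^ 2) := by positivity
        linarith
      have hmem : c + b • (u₀ + w) ∈ hypCone p e := by
        refine @hnear (b, u₀ + w) ?_ hb0 hnn
        rw [Prod.dist_eq, max_lt_iff, dist_zero_right, Real.norm_eq_abs, abs_of_pos hb0,
          dist_eq_norm, add_sub_cancel_left]
        refine ⟨?_, (pi_norm_lt_iff hδ₂).2 fun l => ?_⟩
        · have : b ≤ ε := by rw [hb, div_le_iff₀ hpos1]; linarith
          linarith
        · rw [Real.norm_eq_abs]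
          linarith [habs (some l)]
      have e1 : (fun l => L (C (c l) + X none * (C (u₀ l) + X (some l)))) =
          L 1 • (c + b • (u₀ + w)) := funext fun l => by
        rw [corner_out]
        simp only [Pi.smul_apply, Pi.add_apply, smul_eq_mul, hb, hw]
        field_simp
        ring
      rw [e1]
      exact smul_mem hE hmem hpos1.le
  · have huu := dot_self_pos hu0
    set T : (ι → ℝ) → ℝ := fun u => (u ⬝ᵥ u₀) / (u₀ ⬝ᵥ u₀) with hT
    have hTc : Continuous T := by
      rw [hT]
      unfold dotProduct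
      fun_prop
    have hT1 : T u₀ = 1 := by rw [hT]; simp [div_self huu.ne']
    have hev : ∀ᶠ z : ℝ × (ι → ℝ) in 𝓝 (0, u₀),
        0 < T z.2 ∧ |z.1 * T z.2| < ε ∧ ‖(T z.2)⁻¹ • z.2 - u₀‖ < ε := by
      have hc1 : Continuous fun z : ℝ × (ι → ℝ) => T z.2 := hTc.comp continuous_snd
      refine (hc1.continuousAt.eventually (lt_mem_nhds (by show (0 : ℝ) < T u₀; rw [hT1]; exact one_pos))).and
        (Filter.Eventually.and ?_ ?_)
      · refine ((continuous_fst.mul hc1).abs.continuousAt).eventually_lt continuousAt_const ?_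
        simpa using hε
      · have hc' : ContinuousAt (fun z : ℝ × (ι → ℝ) => ‖(T z.2)⁻¹ • z.2 - u₀‖) (0, u₀) :=
          (((hc1.continuousAt.inv₀ (by show T u₀ ≠ 0; rw [hT1]; exact one_ne_zero)).smul
            continuous_snd.continuousAt).sub continuousAt_const).norm
        refine hc'.eventually_lt continuousAt_const ?_
        simp [hT1, hε]
    filter_upwards [hev] with z hz hz1 hzc hz0
    obtain ⟨hTp, hσε, hwε⟩ := hz
    set w := (T z.2)⁻¹ • z.2 - u₀ with hw
    set σ := z.1 * T z.2 with hσ
    have hσ0 : 0 < σ := mul_pos hz1 hTp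
    have hwc : w ⬝ᵥ c = 0 := by rw [hw, sub_dotProduct, smul_dotProduct, hzc, hperp]; simp
    have hwu : w ⬝ᵥ u₀ = 0 := by
      rw [hw, sub_dotProduct, smul_dotProduct, hT, smul_eq_mul, inv_div]
      have : z.2 ⬝ᵥ u₀ ≠ 0 := fun h => by simp [hT, h] at hTp
      field_simp
      ring
    have e1 : σ • (u₀ + w) = z.1 • z.2 := by
      rw [hw, add_sub_cancel, smul_smul, hσ, mul_assoc, mul_inv_cancel₀ hTp.ne', mul_one]
    have hloc : locS p c k σ (u₀ + w) = 0 := by
      have h := expandR hk σ (u₀ + w)
      rw [e1, hz0] at h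
      exact (mul_eq_zero.1 h.symm).resolve_left (pow_ne_zero _ hσ0.ne')
    set a : Option ι → ℝ := fun o => o.elim σ w with ha
    have h := hcomplete a 1 zero_le_one fun g hg => by
      simp only [cornerSet, Finset.mem_insert, Finset.mem_image, Finset.mem_univ, true_and] at hg
      have hσle : σ ≤ ε := (le_abs_self σ).trans hσε.le
      rcases hg with rfl | rfl | rfl | rfl | ⟨o, rfl⟩
      · simp
      · simpa [ha] using hσ0.le
      · simpa [ha] using hσle
      · rw [map_neg, map_mul, map_sub, hFdef, eval_cornerH, eval_blowPoly]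
        simp [ha, hloc, hwc, hwu]
      · simp only [map_mul, map_sub, map_pow, eval_C, eval_X]
        refine mul_nonneg hσ0.le (sub_nonneg.2 (sq_le_sq.2 ((?_ : |a o| ≤ ε).trans (le_abs_self ε))))
        cases o with
        | none => simpa [ha, abs_of_pos hσ0] using hσle
        | some l => exact ((Real.norm_eq_abs _).symm.trans_le (norm_le_pi_norm w l)).trans hwε.le
    convert h using 1
    rw [← e1]
    funext l
    simp [ha]
    ring

end Vale.Agent.P256
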