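import Vale.Agent.P256.Corner.CornerSign

/-!
# P256: the constraint polynomial at a boundary direction of a corner
-/

namespace Vale.Agent.P256

open MvPolynomial Filter Topology

variable {ι : Type}

/-- The expansion in the blown up variables `(σ, w)`, with direction `u₀ + w`. -/
noncomputable def blowPoly (p : MvPolynomial ι ℝ) (c : ι → ℝ) (k : ℕ) (u₀ : ι → ℝ) :
    MvPolynomial (Option ι) ℝ :=
  ∑ i ∈ Finset.range (expLen p c),
    X none ^ i * aeval (fun l => C (u₀ l) + X (some l)) (tayl p c (k + i))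

variable {d k : ℕ} {p : MvPolynomial ι ℝ} {e c u₀ : ι → ℝ}

theorem eval_blowPoly (v : Option ι → ℝ) :
    eval v (blowPoly p c k u₀) = locS p c k (v none) (u₀ + fun l => v (some l)) := by
  simp only [blowPoly, locS, map_sum, map_mul, map_pow, eval_X, aeval_eq_eval]
  refine Finset.sum_congr rfl fun i _ => ?_
  congr 1
  rw [← aeval_eq_eval, ← aeval_eq_eval, ← AlgHom.comp_apply, comp_aeval]
  simp [Pi.add_def]

theorem lineP_blowPoly_flat (w : ι → ℝ) :
    lineP (0 : Option ι → ℝ) (fun o => o.elim 0 w) (blowPoly p c k u₀) =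
      lineP u₀ w (tayl p c k) := by
  refine Polynomial.funext fun r => ?_
  rw [lineP_eval, lineP_eval, eval_blowPoly]
  simp [locS_zero, aeval_eq_eval, Pi.add_def, Pi.smul_def]

theorem lineP_blowPoly_up :
    lineP (0 : Option ι → ℝ) (fun o => o.elim 1 0) (blowPoly p c k u₀) =
      ∑ i ∈ Finset.range (expLen p c),
        Polynomial.C (eval u₀ (tayl p c (k + i))) * Polynomial.X ^ i := by
  refine Polynomial.funext fun r => ?_
  rw [lineP_eval, eval_blowPoly, Polynomial.eval_finsetSum, locS]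
  refine Finset.sum_congr rfl fun i _ => ?_
  rw [Polynomial.eval_mul, Polynomial.eval_C, Polynomial.eval_pow, Polynomial.eval_X,
    aeval_eq_eval]
  simp [Pi.add_def]
  ring

variable [Fintype ι]

/-- The convexified constraint. -/
noncomputable def cornerH (p : MvPolynomial ι ℝ) (c : ι → ℝ) (k : ℕ) (u₀ : ι → ℝ) (M : ℝ) :
    MvPolynomial (Option ι) ℝ :=
  -blowPoly p c k u₀ + C M * (blowPoly p c k u₀ ^ 2 + dotPoly some c ^ 2 +
    dotPoly some u₀ ^ 2 + X none ^ 2)

theorem eval_cornerH (M : ℝ) (v : Option ι → ℝ) :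
    eval v (cornerH p c k u₀ M) = -eval v (blowPoly p c k u₀) +
      M * (eval v (blowPoly p c k u₀) ^ 2 + ((fun l => v (some l)) ⬝ᵥ c) ^ 2 +
        ((fun l => v (some l)) ⬝ᵥ u₀) ^ 2 + v none ^ 2) := by
  simp [cornerH, eval_dotPoly]

omit [Fintype ι] in
theorem blowPoly_coeff_zero (hg : eval u₀ (tayl p c k) = 0) (v : Option ι → ℝ) :
    (lineP (0 : Option ι → ℝ) v (blowPoly p c k u₀)).coeff 0 = 0 := by
  rw [lineP_coeff, eval_tayl_zero, eval_blowPoly]
  simpa [locS_zero, aeval_eq_eval, Pi.add_def] using hg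

omit [Fintype ι] in
theorem lineP_X_none (v : Option ι → ℝ) :
    lineP (0 : Option ι → ℝ) v (X none) = Polynomial.C (v none) * Polynomial.X := by
  simp [lineP]

theorem cornerH_second (hg : eval u₀ (tayl p c k) = 0) (M : ℝ) (v : Option ι → ℝ) :
    eval v (tayl (cornerH p c k u₀ M) 0 2) = -eval v (tayl (blowPoly p c k u₀) 0 2) +
      M * (eval v (tayl (blowPoly p c k u₀) 0 1) ^ 2 + ((fun l => v (some l)) ⬝ᵥ c) ^ 2 +
        ((fun l => v (some l)) ⬝ᵥ u₀) ^ 2 + v none ^ 2) := by
  rw [← lineP_coeff, ← lineP_coeff, ← lineP_coeff, cornerH]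
  simp only [map_add, map_neg, map_mul, map_pow, lineP_dotPoly, lineP_X_none,
    Polynomial.coeff_add, Polynomial.coeff_neg]
  rw [show lineP (0 : Option ι → ℝ) v (C M) = Polynomial.C M by simp [lineP],
    Polynomial.coeff_C_mul, Polynomial.coeff_add, Polynomial.coeff_add, Polynomial.coeff_add,
    coeff_two_sq (blowPoly_coeff_zero hg v), coeff_two_sq (by simp), coeff_two_sq (by simp),
    coeff_two_sq (by simp)]
  simp

theorem cornerH_up (hg : eval u₀ (tayl p c k) = 0) (M : ℝ) :
    (lineP (0 : Option ι → ℝ) (fun o => o.elim 1 0) (cornerH p c k u₀ M)).coeff 1 =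
      -eval u₀ (tayl p c (k + 1)) := by
  simp only [cornerH, map_add, map_neg, map_mul, map_pow, lineP_dotPoly, lineP_X_none,
    Polynomial.coeff_add, Polynomial.coeff_neg]
  rw [show lineP (0 : Option ι → ℝ) (fun o => o.elim 1 0) (C M) = Polynomial.C M by simp [lineP],
    Polynomial.coeff_C_mul, Polynomial.coeff_add, Polynomial.coeff_add, Polynomial.coeff_add,
    coeff_one_sq (blowPoly_coeff_zero hg _), coeff_one_sq (by simp), coeff_one_sq (by simp),
    coeff_one_sq (by simp), lineP_blowPoly_up, Polynomial.finsetSum_coeff]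
  simp only [Polynomial.coeff_C_mul, Polynomial.coeff_X_pow, mul_ite, mul_one, mul_zero,
    Finset.sum_ite_eq, add_zero, neg_inj]
  by_cases h : 1 ∈ Finset.range (expLen p c)
  · rw [if_pos h]
  · rw [if_neg h, tayl_def, homogeneousComponent_eq_zero, map_zero]
    rw [Finset.mem_range, expLen] at h
    omega

theorem exists_cornerH (hE : IsHyperbolic d p e) (hI : IsolatedCorners p e)
    (hc : c ∈ hypCone p e) (hc0 : c ≠ 0) (hs : IsSingularPt p c) (hk : IsMult p c k)
    (hu : u₀ ∈ hypCone (tayl p c k) e) (hg : eval u₀ (tayl p c k) = 0)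
    (hperp : u₀ ⬝ᵥ c = 0) (hu0 : u₀ ≠ 0) :
    ∃ M, 0 ≤ M ∧ ∃ a, 0 < a ∧ ∀ v : Option ι → ℝ,
      a * ∑ i, v i ^ 2 ≤ eval v (tayl (cornerH p c k u₀ M) 0 2) := by
  have hdot : ∀ a : ι → ℝ,
      Continuous fun v : Option ι → ℝ => (fun l => v (some l)) ⬝ᵥ a := fun a => by
    unfold dotProduct
    fun_prop
  have hdsmul : ∀ (a : ι → ℝ) (t : ℝ) (v : Option ι → ℝ),
      (fun l => (t • v) (some l)) ⬝ᵥ a = t * ((fun l => v (some l)) ⬝ᵥ a) := fun a t v => by
    rw [← smul_eq_mul, ← smul_dotProduct]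
    rfl
  obtain ⟨M, hM, a, ha, hb⟩ := quad_penalty
    (fun v => -eval v (tayl (blowPoly p c k u₀) 0 2))
    (fun v => eval v (tayl (blowPoly p c k u₀) 0 1) ^ 2 + ((fun l => v (some l)) ⬝ᵥ c) ^ 2 +
        ((fun l => v (some l)) ⬝ᵥ u₀) ^ 2 + v none ^ 2)
    (MvPolynomial.continuous_eval _).neg
    (((((MvPolynomial.continuous_eval _).pow 2).add ((hdot c).pow 2)).add ((hdot u₀).pow 2)).add
      ((continuous_apply none).pow 2))
    (fun t v => by rw [eval_tayl_smul]; ring)
    (fun t v => by rw [eval_tayl_smul, hdsmul, hdsmul, Pi.smul_apply, smul_eq_mul]; ring)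
    (fun v => by positivity)
    (fun v hv hsv => by
      have h1 := sq_nonneg (eval v (tayl (blowPoly p c k u₀) 0 1))
      have h2 := sq_nonneg ((fun l => v (some l)) ⬝ᵥ c)
      have h3 := sq_nonneg ((fun l => v (some l)) ⬝ᵥ u₀)
      have h4 := sq_nonneg (v none)
      set w : ι → ℝ := fun l => v (some l) with hw
      have hn : v none = 0 := sq_eq_zero_iff.1 (by linarith)
      have e1 : (fun o : Option ι => o.elim 0 w) = v := funext fun o => by
        cases o with
        | none => exact hn.symm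
        | some l => rfl
      have hwv : w ≠ 0 := fun h => hv (funext fun o => by
        cases o with
        | none => exact hn
        | some l => exact congrFun h l)
      have hgrad : eval v (tayl (blowPoly p c k u₀) 0 1) = 0 := sq_eq_zero_iff.1 (by linarith)
      rw [← lineP_coeff, ← e1, lineP_blowPoly_flat, lineP_coeff] at hgrad
      refine neg_pos.2 ?_
      rw [← lineP_coeff, ← e1, lineP_blowPoly_flat, lineP_coeff]
      exact corner_curvature hE hI hc hc0 hs hk hu hg hperp hu0 hwv hgrad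
        (sq_eq_zero_iff.1 (by linarith)) (sq_eq_zero_iff.1 (by linarith)))
  exact ⟨M, hM, a, ha, fun v => le_of_le_of_eq (hb v) (cornerH_second hg M v).symm⟩

end Vale.Agent.P256
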