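import Vale.Agent.P256.Corner.Pieces

/-!
# P256: signs at a boundary direction of a corner
-/

namespace Vale.Agent.P256

open MvPolynomial Filter Topology

variable {ι : Type} [Fintype ι] {d k : ℕ} {p : MvPolynomial ι ℝ} {e c u₀ : ι → ℝ}

omit [Fintype ι] in
theorem two_le_mult (hs : IsSingularPt p c) (hk : IsMult p c k) : 2 ≤ k := by
  by_contra h
  rcases Nat.eq_zero_or_pos k with h0 | h0
  · exact hk.2 (h0 ▸ hs.1)
  · exact hk.2 ((show k = 1 by omega) ▸ hs.2)

theorem dir_smooth (hI : IsolatedCorners p e) (hc : c ∈ hypCone p e) (hc0 : c ≠ 0)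
    (hs : IsSingularPt p c) (hk : IsMult p c k) {u : ι → ℝ}
    (hu : u ∈ hypCone (tayl p c k) e) (hperp : u ⬝ᵥ c = 0) (hu0 : u ≠ 0) :
    ¬IsSingularPt (tayl p c k) u := by
  intro hsing
  obtain ⟨s, hs'⟩ := (hI.2 c hc hc0 hs).2 k hk u hu hsing
  rw [hs', smul_dotProduct, smul_eq_mul, mul_eq_zero] at hperp
  rcases hperp with h | h
  · exact hu0 (by rw [hs', h, zero_smul])
  · exact (dot_self_pos hc0).ne' h

theorem dir_root_simple (hE : IsHyperbolic d p e) (hI : IsolatedCorners p e)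
    (hc : c ∈ hypCone p e) (hc0 : c ≠ 0) (hs : IsSingularPt p c) (hk : IsMult p c k)
    (hu : u₀ ∈ hypCone (tayl p c k) e) (hg : eval u₀ (tayl p c k) = 0)
    (hperp : u₀ ⬝ᵥ c = 0) (hu0 : u₀ ≠ 0) :
    0 < (lineP u₀ e (tayl p c k)).coeff 1 := by
  rw [lineP_coeff]
  exact loc_pos (loc_hyperbolic hE hc hk) hu
    (mult_one hg (dir_smooth hI hc hc0 hs hk hu hperp hu0))

/-- The second term is negative at a boundary direction. -/
theorem corner_sign (hE : IsHyperbolic d p e) (hI : IsolatedCorners p e)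
    (hc : c ∈ hypCone p e) (hc0 : c ≠ 0) (hs : IsSingularPt p c) (hk : IsMult p c k)
    (hu : u₀ ∈ hypCone (tayl p c k) e) (hg : eval u₀ (tayl p c k) = 0)
    (hperp : u₀ ⬝ᵥ c = 0) (hu0 : u₀ ≠ 0) : eval u₀ (tayl p c (k + 1)) < 0 := by
  have hb := dir_root_simple hE hI hc hc0 hs hk hu hg hperp hu0
  have hk2 := two_le_mult hs hk
  refine (flat_sign hE hc hk (by omega) hg hb).resolve_left fun hline => hu0 ?_
  obtain ⟨δ, hδ, hball⟩ := Metric.eventually_nhds_iff.1 (member_near hE hc hk hu hb)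
  have hσ : (0 : ℝ) < δ / 2 := by linarith
  have hmem : c + (δ / 2) • u₀ ∈ hypCone p e := by
    refine @hball ((δ / 2), u₀) ?_ hσ ?_
    · simp only [Prod.dist_eq, dist_zero_right, dist_self, Real.norm_eq_abs, abs_of_pos hσ,
        max_lt_iff]
      exact ⟨by linarith, hδ⟩
    · have h := expandR hk (δ / 2) u₀
      rw [hline] at h
      rcases mul_eq_zero.1 h.symm with h' | h'
      · exact absurd h' (pow_ne_zero _ hσ.ne')
      · exact h'.ge
  obtain ⟨s, hs'⟩ := (hI.2 c hc hc0 hs).1 _ hmem fun t _ => by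
    rw [show (1 - t) • c + t • (c + (δ / 2) • u₀) = c + (t * (δ / 2)) • u₀ by module]
    exact hline _
  have h1 : c ⬝ᵥ c = s * (c ⬝ᵥ c) := by
    have h := congrArg (fun y => y ⬝ᵥ c) hs'
    simpa [add_dotProduct, smul_dotProduct, hperp] using h
  have hs1 : s = 1 := by
    have := dot_self_pos hc0
    nlinarith
  rw [hs1, one_smul] at hs'
  exact (smul_eq_zero.1 (by simpa using hs')).resolve_left hσ.ne'

/-- The localisation is strictly curved at a boundary direction. -/
theorem corner_curvature (hE : IsHyperbolic d p e) (hI : IsolatedCorners p e)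
    (hc : c ∈ hypCone p e) (hc0 : c ≠ 0) (hs : IsSingularPt p c) (hk : IsMult p c k)
    (hu : u₀ ∈ hypCone (tayl p c k) e) (hg : eval u₀ (tayl p c k) = 0)
    (hperp : u₀ ⬝ᵥ c = 0) (hu0 : u₀ ≠ 0) {v : ι → ℝ} (hv : v ≠ 0)
    (hv1 : eval v (tayl (tayl p c k) u₀ 1) = 0) (hvc : v ⬝ᵥ c = 0) (hvu : v ⬝ᵥ u₀ = 0) :
    eval v (tayl (tayl p c k) u₀ 2) < 0 := by
  have hG := loc_hyperbolic hE hc hk
  set g := tayl p c k with hgdef
  have hsm : ¬IsSingularPt g u₀ := dir_smooth hI hc hc0 hs hk hu hperp hu0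
  have hm := mult_one hg hsm
  have hb : 0 < (lineP v e (tayl g u₀ 1)).coeff 1 := by
    have he : lineP v e (tayl g u₀ 1) = Polynomial.C (eval e (tayl g u₀ 1)) * Polynomial.X := by
      refine Polynomial.funext fun r => ?_
      rw [lineP_eval, linear_add (tayl_homogeneous g u₀ 1), hv1, zero_add, eval_tayl_smul]
      rw [Polynomial.eval_mul, Polynomial.eval_C, Polynomial.eval_X, pow_one, mul_comm]
    rw [he, Polynomial.coeff_C_mul_X]
    simpa using loc_pos hG hu hm
  refine (flat_sign hG hu hm le_rfl hv1 hb).resolve_left fun hline => hv ?_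
  obtain ⟨h1, h2⟩ := line_in_cone hG hu hline fun s hsK => by
    refine dir_smooth hI hc hc0 hs hk hsK ?_ fun h => ?_
    · rw [add_dotProduct, smul_dotProduct, hperp, hvc, smul_zero, add_zero]
    · have h' := congrArg (fun y => y ⬝ᵥ u₀) h
      simp [add_dotProduct, smul_dotProduct, hvu] at h'
      exact hu0 h'
  obtain ⟨s, hs'⟩ := (hI.2 c hc hc0 hs).2 k hk v h1
    (singular_of_lineality hG (two_le_mult hs hk) h1 h2)
  rw [hs', smul_dotProduct, smul_eq_mul, mul_eq_zero] at hvc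
  rw [hs', hvc.resolve_right (dot_self_pos hc0).ne', zero_smul]

end Vale.Agent.P256
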