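import Vale.Agent.P256.Corner.Smooth
import Vale.Agent.P256.Corner.CornerPiece

/-!
# P256: finitely many pieces cover the boundary
-/

namespace Vale.Agent.P256

open MvPolynomial Filter Topology

variable {ι : Type} {d : ℕ} {p : MvPolynomial ι ℝ} {e : ι → ℝ}

theorem lift_zero_mem {S : Set (ι → ℝ)} (hS : IsLift S) : (0 : ι → ℝ) ∈ S := by
  obtain ⟨κ, κ', i1, i2, π, M, -, rfl⟩ := hS
  exact ⟨0, by simpa using Matrix.PosSemidef.zero, map_zero π⟩

theorem lift_smul_mem {S : Set (ι → ℝ)} (hS : IsLift S) {y : ι → ℝ} (hy : y ∈ S) {t : ℝ}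
    (ht : 0 ≤ t) : t • y ∈ S := by
  obtain ⟨κ, κ', i1, i2, π, M, -, rfl⟩ := hS
  obtain ⟨v, hv, rfl⟩ := hy
  refine ⟨t • v, ?_, map_smul π t v⟩
  show (M (t • v)).PosSemidef
  rw [map_smul]
  exact hv.smul ht

variable [Fintype ι]

/-- The sum of two lifts inside the cone is a lift inside the cone containing both. -/
theorem lift_union (hE : IsHyperbolic d p e) {S T : Set (ι → ℝ)} (hS : IsLift S) (hT : IsLift T)
    (hSK : S ⊆ hypCone p e) (hTK : T ⊆ hypCone p e) :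
    ∃ U, IsLift U ∧ U ⊆ hypCone p e ∧ S ⊆ U ∧ T ⊆ U := by
  refine ⟨_, lift_add hS hT, ?_, fun y hy => ⟨y, hy, 0, lift_zero_mem hT, (add_zero y).symm⟩,
    fun y hy => ⟨0, lift_zero_mem hS, y, hy, (zero_add y).symm⟩⟩
  rintro _ ⟨y, hy, z, hz, rfl⟩
  exact mem_add hE (hSK hy) (hTK hz)

theorem corner_cover (hE : IsHyperbolic d p e) (hI : IsolatedCorners p e) {c : ι → ℝ}
    (hc : c ∈ hypCone p e) (hc0 : c ≠ 0) (hs : IsSingularPt p c) :
    ∃ T, IsLift T ∧ T ⊆ hypCone p e ∧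
      ∀ᶠ y in 𝓝 c, y ∈ hypCone p e → eval y p = 0 → y ∈ T := by
  have hp : p ≠ 0 := fun h => hE.2.1.ne' (by rw [h, map_zero])
  obtain ⟨k, hk⟩ := exists_mult hp c
  have hdotc : Continuous fun u : ι → ℝ => u ⬝ᵥ c := by
    unfold dotProduct
    fun_prop
  have hD : IsCompact (Metric.sphere (0 : ι → ℝ) 1 ∩ {u | u ⬝ᵥ c = 0}) :=
    (isCompact_sphere _ _).inter_right (isClosed_eq hdotc continuous_const)
  set Q : Set (ι → ℝ) → Prop := fun s => ∃ T, IsLift T ∧ T ⊆ hypCone p e ∧ ∃ δ : ℝ, 0 < δ ∧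
    ∀ u ∈ s, ∀ r, 0 < r → r < δ → u ⬝ᵥ c = 0 → c + r • u ∈ hypCone p e →
      eval (c + r • u) p = 0 → c + r • u ∈ T with hQ
  have hQD : Q (Metric.sphere (0 : ι → ℝ) 1 ∩ {u | u ⬝ᵥ c = 0}) := by
    refine hD.induction_on (p := Q) ⟨_, lift_zero, by simpa using zero_mem hE, 1, one_pos,
      fun u hu => absurd hu (Set.notMem_empty u)⟩ ?_ ?_ ?_
    · rintro s t hst ⟨T, hT, hTK, δ, hδ, h⟩
      exact ⟨T, hT, hTK, δ, hδ, fun u hu => h u (hst hu)⟩
    · rintro s t ⟨S, hS, hSK, δ, hδ, h⟩ ⟨T, hT, hTK, η, hη, g⟩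
      obtain ⟨U, hU, hUK, hSU, hTU⟩ := lift_union hE hS hT hSK hTK
      refine ⟨U, hU, hUK, min δ η, lt_min hδ hη, fun u hu r hr hr' a b c => ?_⟩
      rcases hu with hu | hu
      · exact hSU (h u hu r hr (hr'.trans_le (min_le_left _ _)) a b c)
      · exact hTU (g u hu r hr (hr'.trans_le (min_le_right _ _)) a b c)
    · rintro u₀ ⟨hu1, hu2⟩
      have hu0 : u₀ ≠ 0 := fun h => by simp [h] at hu1
      obtain ⟨T, hT, hTK, hev⟩ : ∃ T, IsLift T ∧ T ⊆ hypCone p e ∧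
          ∀ᶠ z : ℝ × (ι → ℝ) in 𝓝 (0, u₀), 0 < z.1 → z.2 ⬝ᵥ c = 0 →
            c + z.1 • z.2 ∈ hypCone p e → eval (c + z.1 • z.2) p = 0 → c + z.1 • z.2 ∈ T := by
        by_cases hin : u₀ ∈ hypCone (tayl p c k) e
        · by_cases hg : eval u₀ (tayl p c k) = 0
          · obtain ⟨T, hT, hTK, hev⟩ := corner_piece hE hI hc hc0 hs hk hin hg hu2 hu0
            exact ⟨T, hT, hTK, hev.mono fun z hz h1 h2 _ h4 => hz h1 h2 h4⟩
          · refine ⟨_, lift_zero, by simpa using zero_mem hE, ?_⟩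
            have hcont : Continuous fun z : ℝ × (ι → ℝ) => locS p c k z.1 z.2 :=
              locS_continuous continuous_fst continuous_snd
            have hne : ∀ᶠ r in 𝓝 (locS p c k (0 : ℝ) u₀), r ≠ (0 : ℝ) :=
              isOpen_ne.mem_nhds (by rwa [locS_zero, aeval_eq_eval])
            filter_upwards [(hcont.continuousAt (x := ((0 : ℝ), u₀))).tendsto.eventually hne]
              with z hz h1 _ _ h4
            rw [expandR hk] at h4
            exact absurd ((mul_eq_zero.1 h4).resolve_left (pow_ne_zero _ h1.ne')) hz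
        · refine ⟨_, lift_zero, by simpa using zero_mem hE, ?_⟩
          filter_upwards [tangent hE hc hk hin] with z hz h1 _ h3
          exact absurd h3 (hz h1)
      obtain ⟨δ, hδ, hball⟩ := Metric.eventually_nhds_iff.1 hev
      refine ⟨Metric.ball u₀ δ, mem_nhdsWithin_of_mem_nhds (Metric.ball_mem_nhds _ hδ), T, hT, hTK,
        δ, hδ, fun u hu r hr hr' => @hball (r, u) ?_ hr⟩
      rw [Prod.dist_eq, max_lt_iff, dist_zero_right, Real.norm_eq_abs, abs_of_pos hr]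
      exact ⟨hr', hu⟩
  obtain ⟨T, hT, hTK, δ, hδ, hcov⟩ := hQD
  obtain ⟨U, hU, hUK, hTU, hrU⟩ := lift_union hE hT (lift_ray c) hTK (by
    rintro _ ⟨t, ht, rfl⟩
    exact smul_mem hE hc ht)
  refine ⟨U, hU, hUK, ?_⟩
  set τ : (ι → ℝ) → ℝ := fun y => (y ⬝ᵥ c) / (c ⬝ᵥ c) with hτ
  have hcc := dot_self_pos hc0
  have hτc : Continuous τ := hdotc.div_const _
  have hτ1 : τ c = 1 := by rw [hτ]; simp [div_self hcc.ne']
  have hev1 : ∀ᶠ y in 𝓝 c, 0 < τ y :=
    hτc.continuousAt.eventually (lt_mem_nhds (by rw [hτ1]; exact one_pos))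
  have hev2 : ∀ᶠ y in 𝓝 c, ‖(τ y)⁻¹ • y - c‖ < δ := by
    have hc' : ContinuousAt (fun y => ‖(τ y)⁻¹ • y - c‖) c :=
      (((hτc.continuousAt.inv₀ (by rw [hτ1]; exact one_ne_zero)).smul continuousAt_id).sub
        continuousAt_const).norm
    refine hc'.eventually_lt continuousAt_const ?_
    simp [hτ1, hδ]
  filter_upwards [hev1, hev2] with y hy1 hy2 hyK hy0
  set v := (τ y)⁻¹ • y - c with hv
  have e1 : y = τ y • (c + v) := by
    rw [hv, add_sub_cancel, smul_smul, mul_inv_cancel₀ hy1.ne', one_smul]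
  rw [e1]
  refine lift_smul_mem hU ?_ hy1.le
  by_cases hv0 : v = 0
  · rw [hv0, add_zero]
    exact hrU ⟨1, zero_le_one, (one_smul ℝ c).symm⟩
  have hn : 0 < ‖v‖ := norm_pos_iff.2 hv0
  have hvc : v ⬝ᵥ c = 0 := by
    rw [hv, sub_dotProduct, smul_dotProduct, hτ, smul_eq_mul, inv_div]
    have : y ⬝ᵥ c ≠ 0 := fun h => by simp [hτ, h] at hy1
    field_simp
    ring
  have e2 : c + ‖v‖ • (‖v‖⁻¹ • v) = c + v := by
    rw [smul_smul, mul_inv_cancel₀ hn.ne', one_smul]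
  have hmem : c + v ∈ hypCone p e := by
    rw [hv, add_sub_cancel]
    exact smul_mem hE hyK (inv_nonneg.2 hy1.le)
  have hzero : eval (c + v) p = 0 := by
    rw [hv, add_sub_cancel, eval_smul' p hE.1, hy0, mul_zero]
  have hperp : (‖v‖⁻¹ • v) ⬝ᵥ c = 0 := by rw [smul_dotProduct, hvc, smul_zero]
  have h := hcov (‖v‖⁻¹ • v) ⟨?_, hperp⟩ ‖v‖ hn hy2 hperp (by rwa [e2]) (by rwa [e2])
  · rw [e2] at h
    exact hTU h
  · rw [mem_sphere_zero_iff_norm, norm_smul, norm_inv, norm_norm, inv_mul_cancel₀ hn.ne']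

theorem boundary_cover (hE : IsHyperbolic d p e) (hI : IsolatedCorners p e) :
    ∃ T, IsLift T ∧ T ⊆ hypCone p e ∧ ∀ y ∈ hypCone p e, eval y p = 0 → y ∈ T := by
  set B : Set (ι → ℝ) := Metric.sphere 0 1 ∩ (hypCone p e ∩ {y | eval y p = 0}) with hB
  have hBc : IsCompact B := (isCompact_sphere _ _).inter_right
    ((cone_closed hE).inter (isClosed_eq (MvPolynomial.continuous_eval p) continuous_const))
  set Q : Set (ι → ℝ) → Prop := fun s => ∃ T, IsLift T ∧ T ⊆ hypCone p e ∧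
    ∀ y ∈ s, y ∈ hypCone p e → eval y p = 0 → y ∈ T with hQ
  have hQB : Q B := by
    refine hBc.induction_on (p := Q) ⟨_, lift_zero, by simpa using zero_mem hE,
      fun u hu => absurd hu (Set.notMem_empty u)⟩ ?_ ?_ ?_
    · rintro s t hst ⟨T, hT, hTK, h⟩
      exact ⟨T, hT, hTK, fun u hu => h u (hst hu)⟩
    · rintro s t ⟨S, hS, hSK, h⟩ ⟨T, hT, hTK, g⟩
      obtain ⟨U, hU, hUK, hSU, hTU⟩ := lift_union hE hS hT hSK hTK
      refine ⟨U, hU, hUK, fun u hu a b => ?_⟩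
      rcases hu with hu | hu
      · exact hSU (h u hu a b)
      · exact hTU (g u hu a b)
    · rintro x ⟨hx1, hx2, hx3⟩
      have hx0 : x ≠ 0 := fun h => by simp [h] at hx1
      obtain ⟨T, hT, hTK, hev⟩ : ∃ T, IsLift T ∧ T ⊆ hypCone p e ∧
          ∀ᶠ y in 𝓝 x, y ∈ hypCone p e → eval y p = 0 → y ∈ T := by
        by_cases hs : IsSingularPt p x
        · exact corner_cover hE hI hx2 hx0 hs
        · exact smooth_piece hE hI hx2 hx0 hx3 hs
      exact ⟨_, mem_nhdsWithin_of_mem_nhds hev, T, hT, hTK, fun y hy => hy⟩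
  obtain ⟨T, hT, hTK, hcov⟩ := hQB
  refine ⟨T, hT, hTK, fun y hyK hy0 => ?_⟩
  by_cases hy : y = 0
  · rw [hy]
    exact lift_zero_mem hT
  have hn : 0 < ‖y‖ := norm_pos_iff.2 hy
  have hK1 := smul_mem hE hyK (inv_nonneg.2 hn.le)
  have h01 : eval (‖y‖⁻¹ • y) p = 0 := by rw [eval_smul' p hE.1, hy0, mul_zero]
  have h1 := hcov (‖y‖⁻¹ • y) ⟨?_, hK1, h01⟩ hK1 h01
  · have h2 := lift_smul_mem hT h1 hn.le
    rwa [smul_smul, mul_inv_cancel₀ hn.ne', one_smul] at h2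
  · rw [mem_sphere_zero_iff_norm, norm_smul, norm_inv, norm_norm, inv_mul_cancel₀ hn.ne']

/-- A pointed hyperbolicity cone with isolated corners is a spectrahedral shadow. -/
theorem isolatedCorners_isShadow (hE : IsHyperbolic d p e) (hI : IsolatedCorners p e) :
    IsShadow (hypCone p e) := by
  obtain ⟨T, hT, hTK, hcov⟩ := boundary_cover hE hI
  have hray : {y | ∃ t : ℝ, 0 ≤ t ∧ y = t • e} ⊆ hypCone p e := by
    rintro _ ⟨t, ht, rfl⟩
    exact smul_mem hE (int_e hE).1 ht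
  suffices h : hypCone p e = {x | ∃ y ∈ {y | ∃ t : ℝ, 0 ≤ t ∧ y = t • e}, ∃ z ∈ T, x = y + z} by
    rw [h]
    exact isShadow_of_lift (lift_add (lift_ray e) hT)
  refine Set.Subset.antisymm (fun x hx => ?_) ?_
  swap
  · rintro _ ⟨y, hy, z, hz, rfl⟩
    exact mem_add hE (hray hy) (hTK hz)
  set S : Set ℝ := {t | 0 ≤ t ∧ x - t • e ∈ hypCone p e} with hS
  have hc' : Continuous fun t : ℝ => x - t • e := by fun_prop
  have hclosed : IsClosed S := isClosed_Ici.inter ((cone_closed hE).preimage hc')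
  have h0S : (0 : ℝ) ∈ S := ⟨le_rfl, by simpa using hx⟩
  by_cases hbdd : BddAbove S
  · have hmem := hclosed.csSup_mem ⟨0, h0S⟩ hbdd
    set t₀ := sSup S with ht₀
    refine ⟨t₀ • e, ⟨t₀, hmem.1, rfl⟩, x - t₀ • e, hcov _ hmem.2 ?_, (add_sub_cancel _ _).symm⟩
    by_contra hne
    obtain ⟨α, hα, hint⟩ := int_shrink hE ⟨hmem.2, hne⟩
    have h1 : t₀ + α ∈ S := ⟨by linarith [hmem.1], by rw [add_smul, ← sub_sub]; exact hint.1⟩
    linarith [le_csSup hbdd h1]
  · have hneg : -e ∈ hypCone p e := by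
      have hcn : Continuous fun r : ℝ => r • x - e := by fun_prop
      by_contra hout
      obtain ⟨δ, hδ, hball⟩ := Metric.eventually_nhds_iff.1 ((hcn.continuousAt (x := 0)).tendsto.eventually
        ((cone_closed hE).isOpen_compl.mem_nhds (by simpa using hout) :
          ∀ᶠ y in 𝓝 _, y ∈ (hypCone p e)ᶜ))
      obtain ⟨t, ht, hlt⟩ := not_bddAbove_iff.1 hbdd δ⁻¹
      have htpos : 0 < t := lt_trans (inv_pos.2 hδ) hlt
      refine hball (y := t⁻¹) ?_ ?_
      · rw [dist_zero_right, Real.norm_eq_abs, abs_of_pos (inv_pos.2 htpos)]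
        exact inv_lt_of_inv_lt₀ hδ hlt
      · have h := smul_mem hE ht.2 (inv_nonneg.2 htpos.le)
        rwa [smul_sub, smul_smul, inv_mul_cancel₀ htpos.ne', one_smul] at h
    have he : e = 0 := hI.1 e (int_e hE).1 hneg
    have hall : ∀ y, y ∈ hypCone p e := fun y => (mem_iff hE y).2 fun τ _ => by
      rw [he, smul_zero, add_zero]
      have hd : d = 0 := by
        by_contra hd
        have h := eval_smul' p hE.1 0 e
        rw [zero_smul, zero_pow hd, zero_mul] at h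
        exact hE.2.1.ne' (by rw [he]; exact h)
      have hcst : eval y p = eval e p := by
        subst hd
        rw [MvPolynomial.totalDegree_eq_zero_iff_eq_C.1 (Nat.le_zero.1 hE.1.totalDegree_le)]
        simp
      rw [hcst]
      exact hE.2.1.ne'
    rw [hI.1 x hx (hall _)]
    exact ⟨0, ⟨0, le_rfl, (zero_smul ℝ e).symm⟩, 0, lift_zero_mem hT, (add_zero 0).symm⟩

end Vale.Agent.P256
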