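import Vale.Agent.P256.Defs

/-!
# P256: localisations of a polynomial and the isolated-corner condition
-/

namespace Vale.Agent.P256

open MvPolynomial

/-- The homogeneous part of degree `m` of the translate `v ↦ p (x + v)`. -/
noncomputable def tayl {ι : Type} (p : MvPolynomial ι ℝ) (x : ι → ℝ) (m : ℕ) :
    MvPolynomial ι ℝ :=
  homogeneousComponent m (aeval (fun i => X i + C (x i)) p)

/-- `x` is a zero of `p` at which the gradient of `p` vanishes. -/
def IsSingularPt {ι : Type} (p : MvPolynomial ι ℝ) (x : ι → ℝ) : Prop :=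
  tayl p x 0 = 0 ∧ tayl p x 1 = 0

/-- `k` is the multiplicity of `x` as a zero of `p`, so `tayl p x k` is the localisation. -/
def IsMult {ι : Type} (p : MvPolynomial ι ℝ) (x : ι → ℝ) (k : ℕ) : Prop :=
  (∀ m < k, tayl p x m = 0) ∧ tayl p x k ≠ 0

/-- The cone is pointed; from a singular nonzero point of it no segment of zeros inside the cone
leaves the ray; the cone of the localisation at such a point is smooth away from the line through
the point. -/
def IsolatedCorners {ι : Type} (p : MvPolynomial ι ℝ) (e : ι → ℝ) : Prop :=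
  (∀ x ∈ hypCone p e, -x ∈ hypCone p e → x = 0) ∧
    ∀ x ∈ hypCone p e, x ≠ 0 → IsSingularPt p x →
      (∀ y ∈ hypCone p e, (∀ t ∈ Set.Icc (0 : ℝ) 1, eval ((1 - t) • x + t • y) p = 0) →
        ∃ s : ℝ, y = s • x) ∧
      ∀ k, IsMult p x k → ∀ y ∈ hypCone (tayl p x k) e, IsSingularPt (tayl p x k) y →
        ∃ s : ℝ, y = s • x

end Vale.Agent.P256
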