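import Vale.Agent.P256.Corner.Cover

/-!
# P256: cubics with a singular boundary ray that have isolated corners
-/

namespace Vale.Agent.P256

open MvPolynomial

variable {m : ℕ}

/-- The quadratic form `u₀² - |u|²` in the variables `(s, u₀, u)`. -/
noncomputable def lightForm (m : ℕ) : MvPolynomial (Option (Option (Fin m))) ℝ :=
  X (some none) ^ 2 - ∑ i : Fin m, X (some (some i)) ^ 2

/-- The cubic `s (u₀² - |u|²) - u₀³`. -/
noncomputable def cornerCubic (m : ℕ) : MvPolynomial (Option (Option (Fin m))) ℝ :=
  X none * lightForm m - X (some none) ^ 3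

/-- The direction `(2, 1, 0)`. -/
def cornerDir (m : ℕ) : Option (Option (Fin m)) → ℝ
  | none => 2
  | some none => 1
  | some (some _) => 0

/-- The squared length of the last variables. -/
def tailSq (x : Option (Option (Fin m)) → ℝ) : ℝ := ∑ i, x (some (some i)) ^ 2

theorem eval_lightForm (x : Option (Option (Fin m)) → ℝ) :
    eval x (lightForm m) = x (some none) ^ 2 - tailSq x := by
  simp [lightForm, tailSq]

theorem eval_cornerCubic (x : Option (Option (Fin m)) → ℝ) :
    eval x (cornerCubic m) = x none * (x (some none) ^ 2 - tailSq x) - x (some none) ^ 3 := by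
  simp [cornerCubic, eval_lightForm]

theorem cornerCubic_hyperbolic (m : ℕ) : IsHyperbolic 3 (cornerCubic m) (cornerDir m) := by
  refine ⟨?_, ?_, ?_⟩
  · refine IsHomogeneous.sub ?_ (isHomogeneous_X_pow _ _)
    exact (isHomogeneous_X ℝ none).mul
      ((isHomogeneous_X_pow (some none) 2).sub (IsHomogeneous.sum _ _ _ fun i _ =>
        isHomogeneous_X_pow _ 2))
  · simp [eval_cornerCubic, tailSq, cornerDir]
  · intro x z hz
    by_contra hb
    set R : ℝ := tailSq x with hR
    have hR0 : 0 ≤ R := Finset.sum_nonneg fun i _ => sq_nonneg _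
    set c : ℝ := 2 * x (some none) - x none with hc
    set τ : ℂ := z - (x (some none) : ℂ) with hτ
    have hsum : ∑ i : Fin m, (-(x (some (some i)) : ℂ)) ^ 2 = (R : ℂ) := by
      rw [hR, tailSq, Complex.ofReal_sum]
      exact Finset.sum_congr rfl fun i _ => by push_cast; ring
    have heq : τ ^ 3 + (c : ℂ) * τ ^ 2 - 2 * (R : ℂ) * τ - (c : ℂ) * (R : ℂ) = 0 := by
      rw [← hz]
      simp only [cornerCubic, lightForm, map_sub, map_mul, map_pow, map_sum, aeval_X, cornerDir,
        Complex.ofReal_zero, mul_zero, zero_sub, Complex.ofReal_one, mul_one, hsum]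
      rw [hτ, hc]
      push_cast
      ring
    set a : ℝ := τ.re with ha
    set b : ℝ := τ.im with hb'
    have hb0 : b ≠ 0 := by simpa [hb', hτ] using hb
    have him := congrArg Complex.im heq
    have hre := congrArg Complex.re heq
    simp [pow_succ, Complex.mul_re, Complex.mul_im, ← ha, ← hb'] at him hre
    have himb : b * (3 * a ^ 2 - b ^ 2 + 2 * c * a - 2 * R) = 0 := by linear_combination him
    have hb2 := (mul_eq_zero.1 himb).resolve_left hb0
    have hfac : ∀ t : ℝ, (t + (c + 2 * a)) * ((t - a) ^ 2 + b ^ 2) =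
        t ^ 3 + c * t ^ 2 - 2 * R * t - c * R := fun t => by
      linear_combination -hre + (a - t) * hb2
    set r := Real.sqrt R with hr
    have hr2 : r ^ 2 = R := Real.sq_sqrt hR0
    have hpos : ∀ t : ℝ, 0 < (t - a) ^ 2 + b ^ 2 := fun t => by positivity
    rcases (Real.sqrt_nonneg R).eq_or_lt with h0 | h0
    · have hR' : R = 0 := by rw [← hr2, hr, ← h0]; ring
      have hz' : τ ^ 2 * (τ + (c : ℂ)) = 0 := by
        rw [← heq, hR']
        push_cast
        ring
      rcases mul_eq_zero.1 hz' with h | h
      · exact hb0 (by rw [hb', sq_eq_zero_iff.1 h]; rfl)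
      · exact hb0 (by rw [hb', eq_neg_of_add_eq_zero_left h]; simp)
    · have h1 : (r + (c + 2 * a)) * ((r - a) ^ 2 + b ^ 2) = -r ^ 3 := by
        rw [hfac, ← hr2]; ring
      have h2 : (-r + (c + 2 * a)) * ((-r - a) ^ 2 + b ^ 2) = r ^ 3 := by
        rw [hfac, ← hr2]; ring
      have hr3 : 0 < r ^ 3 := pow_pos h0 3
      have h1' : r + (c + 2 * a) < 0 := by nlinarith [hpos r]
      have h2' : 0 < -r + (c + 2 * a) := by nlinarith [hpos (-r)]
      linarith

theorem cornerCubic_shape {x : Option (Option (Fin m)) → ℝ}
    (hx : x ∈ hypCone (cornerCubic m) (cornerDir m)) :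
    (x (some none) = 0 ∧ tailSq x = 0) ∨
      (0 < x (some none) ∧ tailSq x < x (some none) ^ 2) := by
  have hE := cornerCubic_hyperbolic m
  have hR0 : 0 ≤ tailSq x := Finset.sum_nonneg fun i _ => sq_nonneg _
  set r := Real.sqrt (tailSq x) with hr
  have hr2 : r ^ 2 = tailSq x := Real.sq_sqrt hR0
  have hr0 : 0 ≤ r := Real.sqrt_nonneg _
  have hge : r ≤ x (some none) := by
    by_contra hlt
    rw [not_le] at hlt
    have h := int_pos hE (int_add_e hE hx (sub_pos.2 hlt))
    rw [eval_cornerCubic] at h
    have e1 : tailSq (x + (r - x (some none)) • cornerDir m) = tailSq x := by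
      simp [tailSq, cornerDir]
    rw [e1, ← hr2] at h
    simp [cornerDir] at h
    nlinarith [pow_nonneg hr0 3]
  rcases hge.eq_or_lt with heq | hlt
  · refine Or.inl ?_
    have hnn : 0 ≤ eval x (cornerCubic m) := by
      by_cases h0 : eval x (cornerCubic m) = 0
      · exact h0.ge
      · exact (int_pos hE ⟨hx, h0⟩).le
    rw [eval_cornerCubic, ← hr2, heq, sub_self, mul_zero, zero_sub, neg_nonneg] at hnn
    have h0 : x (some none) = 0 := by
      rcases (hr0.trans hge).eq_or_lt with h | h
      · exact h.symm
      · exact absurd hnn (not_le.2 (pow_pos h 3))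
    exact ⟨h0, by rw [← hr2, heq, h0]; ring⟩
  · exact Or.inr ⟨hr0.trans_lt hlt, by rw [← hr2]; nlinarith⟩

theorem axis_point {x : Option (Option (Fin m)) → ℝ} (h0 : x (some none) = 0)
    (hR : tailSq x = 0) {y : Option (Option (Fin m)) → ℝ} (g0 : y (some none) = 0)
    (gR : tailSq y = 0) (hx : x none ≠ 0) : y = (y none / x none) • x := by
  have hz : ∀ {w : Option (Option (Fin m)) → ℝ}, tailSq w = 0 → ∀ i, w (some (some i)) = 0 :=
    fun {w} hw i => sq_eq_zero_iff.1
      ((Finset.sum_eq_zero_iff_of_nonneg fun j _ => sq_nonneg _).1 hw i (Finset.mem_univ i))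
  funext o
  rcases o with - | - | i
  · simp [hx]
  · simp [h0, g0]
  · simp [hz hR i, hz gR i]

theorem cornerCubic_pointed : ∀ x ∈ hypCone (cornerCubic m) (cornerDir m),
    -x ∈ hypCone (cornerCubic m) (cornerDir m) → x = 0 := by
  intro x hx hnx
  have hE := cornerCubic_hyperbolic m
  have hz : x (some none) = 0 ∧ tailSq x = 0 := by
    rcases cornerCubic_shape hx with h | h
    · exact h
    · exfalso
      rcases cornerCubic_shape hnx with g | g <;> simp at g <;> linarith [h.1, g.1]
  have key : ∀ w ∈ hypCone (cornerCubic m) (cornerDir m), w (some none) = 0 → tailSq w = 0 →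
      0 ≤ w none := by
    intro w hw h0 hR
    by_contra hneg
    rw [not_le] at hneg
    have h := int_pos hE (int_add_e hE hw (neg_pos.2 hneg))
    rw [eval_cornerCubic] at h
    have : tailSq (w + (-w none) • cornerDir m) = tailSq w := by
      simp [tailSq, cornerDir]
    rw [this, hR] at h
    simp [cornerDir, h0] at h
    nlinarith [pow_pos (neg_pos.2 hneg) 3]
  have h1 := key x hx hz.1 hz.2
  have h2 := key (-x) hnx (by simp [hz.1]) (by simpa [tailSq] using hz.2)
  simp at h2
  have hzero : ∀ i, x (some (some i)) = 0 := fun i => sq_eq_zero_iff.1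
    ((Finset.sum_eq_zero_iff_of_nonneg fun j _ => sq_nonneg _).1 hz.2 i (Finset.mem_univ i))
  funext o
  rcases o with - | - | i
  · show x none = 0
    linarith
  · exact hz.1
  · exact hzero i

/-- The restriction of the cubic to a line through a point of the singular axis. -/
theorem lineP_axis {x : Option (Option (Fin m)) → ℝ} (h0 : x (some none) = 0)
    (hR : ∀ i, x (some (some i)) = 0) (v : Option (Option (Fin m)) → ℝ) :
    lineP x v (cornerCubic m) = Polynomial.C (x none * eval v (lightForm m)) * Polynomial.X ^ 2 +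
      Polynomial.C (eval v (cornerCubic m)) * Polynomial.X ^ 3 := by
  refine Polynomial.funext fun r => ?_
  rw [lineP_eval, eval_cornerCubic, eval_cornerCubic, eval_lightForm]
  simp [tailSq, h0, hR, mul_pow, ← Finset.mul_sum, Polynomial.eval_finsetSum]
  ring

theorem cornerCubic_corners (m : ℕ) : IsolatedCorners (cornerCubic m) (cornerDir m) := by
  refine ⟨cornerCubic_pointed, fun x hx hx0 hs => ?_⟩
  have hs' := (isSingularPt_iff _ _).1 hs
  have hflat : x (some none) = 0 ∧ tailSq x = 0 := by
    rcases cornerCubic_shape hx with h | h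
    · exact h
    · exfalso
      have h1 : eval (fun o => if o = none then (1 : ℝ) else 0) (tayl (cornerCubic m) x 1) = 0 := by
        rw [hs'.2, map_zero]
      rw [← lineP_coeff] at h1
      have e1 : lineP x (fun o => if o = none then (1 : ℝ) else 0) (cornerCubic m) =
          Polynomial.C (eval x (cornerCubic m)) +
            Polynomial.C (x (some none) ^ 2 - tailSq x) * Polynomial.X := by
        refine Polynomial.funext fun r => ?_
        rw [lineP_eval, eval_cornerCubic, eval_cornerCubic]
        simp [tailSq, Polynomial.eval_finsetSum]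
        ring
      rw [e1, Polynomial.coeff_add, Polynomial.coeff_C_of_ne_zero one_ne_zero,
        Polynomial.coeff_C_mul_X, if_pos rfl, zero_add] at h1
      linarith [h.2]
  have hzero : ∀ i, x (some (some i)) = 0 := fun i => sq_eq_zero_iff.1
    ((Finset.sum_eq_zero_iff_of_nonneg fun j _ => sq_nonneg _).1 hflat.2 i (Finset.mem_univ i))
  have hxn : x none ≠ 0 := fun h => hx0 (funext fun o => by
    rcases o with - | - | i
    · exact h
    · exact hflat.1
    · exact hzero i)
  refine ⟨fun y hy hseg => ?_, fun k hk y _ hy => ?_⟩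
  · have hline : ∀ t : ℝ, eval ((1 - t) • x + t • y) (cornerCubic m) =
        t ^ 2 * ((1 - t) * x none * (y (some none) ^ 2 - tailSq y) +
          t * eval y (cornerCubic m)) := by
      intro t
      rw [eval_cornerCubic, eval_cornerCubic]
      simp [tailSq, hflat.1, hzero, mul_pow, ← Finset.mul_sum]
      ring
    have hy0 : eval y (cornerCubic m) = 0 := by
      have h := hseg 1 ⟨zero_le_one, le_rfl⟩
      rwa [hline, one_pow, one_mul, sub_self, zero_mul, zero_mul, zero_add, one_mul] at h
    have h := hseg (1 / 2) ⟨by norm_num, by norm_num⟩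
    rw [hline, hy0] at h
    norm_num [hxn] at h
    rcases cornerCubic_shape hy with g | g
    · exact ⟨_, axis_point hflat.1 hflat.2 g.1 g.2 hxn⟩
    · exfalso
      linarith [g.2]
  · have hT2 : tayl (cornerCubic m) x 2 = C (x none) * lightForm m := MvPolynomial.funext fun v => by
      rw [← lineP_coeff, lineP_axis hflat.1 hzero, Polynomial.coeff_add, Polynomial.coeff_C_mul,
        Polynomial.coeff_C_mul, Polynomial.coeff_X_pow, Polynomial.coeff_X_pow]
      simp
    have hT2ne : tayl (cornerCubic m) x 2 ≠ 0 := fun h => hxn (by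
      have := congrArg (eval fun o => if o = some none then (1 : ℝ) else 0) h
      rw [hT2] at this
      simpa [eval_lightForm, tailSq] using this)
    have hk2 : k = 2 := le_antisymm (mult_le hk hT2ne) (two_le_mult hs hk)
    subst hk2
    rw [hT2] at hy
    obtain ⟨hy0, hy1⟩ := (isSingularPt_iff _ _).1 hy
    have h1 := congrArg (eval fun o => if o = some none then (1 : ℝ) else 0) hy1
    rw [map_zero, ← lineP_coeff] at h1
    have e1 : lineP y (fun o => if o = some none then (1 : ℝ) else 0) (C (x none) * lightForm m) =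
        Polynomial.C (eval y (C (x none) * lightForm m)) +
          Polynomial.C (2 * x none * y (some none)) * Polynomial.X +
            Polynomial.C (x none) * Polynomial.X ^ 2 := by
      refine Polynomial.funext fun r => ?_
      rw [lineP_eval]
      simp [eval_lightForm, tailSq, Polynomial.eval_finsetSum]
      ring
    rw [e1, Polynomial.coeff_add, Polynomial.coeff_add, Polynomial.coeff_C_of_ne_zero one_ne_zero,
      Polynomial.coeff_C_mul_X, if_pos rfl, Polynomial.coeff_C_mul, Polynomial.coeff_X_pow] at h1
    simp [hxn] at h1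
    rw [map_mul, eval_C, eval_lightForm, h1] at hy0
    have hRy : tailSq y = 0 := by
      rcases mul_eq_zero.1 hy0 with h | h
      · exact absurd h hxn
      · linarith
    exact ⟨_, axis_point hflat.1 hflat.2 h1 hRy hxn⟩

theorem cornerCubic_singular (m : ℕ) : ∃ x ∈ hypCone (cornerCubic m) (cornerDir m),
    x ≠ 0 ∧ IsSingularPt (cornerCubic m) x := by
  set x : Option (Option (Fin m)) → ℝ := fun o => if o = none then 1 else 0 with hx
  refine ⟨x, ?_, fun h => one_ne_zero (α := ℝ) (by simpa [hx] using congrFun h none), ?_⟩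
  · rw [mem_iff (cornerCubic_hyperbolic m)]
    intro τ hτ
    rw [eval_cornerCubic]
    simp [tailSq, hx, cornerDir]
    exact ne_of_gt (by nlinarith [pow_pos hτ 3, pow_pos hτ 2])
  · constructor <;> refine MvPolynomial.funext fun v => ?_ <;>
      rw [map_zero, ← lineP_coeff, lineP_axis (by simp [hx]) (fun i => by simp [hx]),
        Polynomial.coeff_add, Polynomial.coeff_C_mul, Polynomial.coeff_C_mul,
        Polynomial.coeff_X_pow, Polynomial.coeff_X_pow] <;>
      simp

end Vale.Agent.P256
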