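import Vale.Agent.P256.Cone

/-!
# P256: interior points, stability in interior directions, root bounds
-/

namespace Vale.Agent.P256

open MvPolynomial Filter Topology

variable {ι : Type} {d : ℕ} {p : MvPolynomial ι ℝ} {e : ι → ℝ}

/-- A polynomial with all roots far from `z` cannot be much larger elsewhere than at `z`. -/
theorem root_bound {g : Polynomial ℂ} (hd : g.natDegree ≤ d) {z z' : ℂ} {δ : ℝ} (hδ : 0 < δ)
    (hroots : ∀ r : ℂ, g.eval r = 0 → δ ≤ ‖z - r‖) :
    ‖g.eval z'‖ ≤ (1 + ‖z' - z‖ / δ) ^ d * ‖g.eval z‖ := by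
  set C : ℝ := 1 + ‖z' - z‖ / δ with hC
  have hC1 : 1 ≤ C := by
    have : 0 ≤ ‖z' - z‖ / δ := by positivity
    linarith
  by_cases hg : g = 0
  · simp [hg]
  have hsp : g.Splits := IsAlgClosed.splits g
  have hcard : g.roots.card ≤ d := (Polynomial.card_roots' g).trans hd
  have hprod : ∀ s : Multiset ℂ, (∀ r ∈ s, δ ≤ ‖z - r‖) →
      ‖(s.map fun r => z' - r).prod‖ ≤ C ^ s.card * ‖(s.map fun r => z - r).prod‖ := by
    intro s hs
    induction s using Multiset.induction_on with
    | empty => simp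
    | cons a s ih =>
      have h1 : δ ≤ ‖z - a‖ := hs a (Multiset.mem_cons_self _ _)
      have h2 : ‖z' - a‖ ≤ C * ‖z - a‖ := by
        have h3 : ‖z' - a‖ ≤ ‖z' - z‖ + ‖z - a‖ := norm_sub_le_norm_sub_add_norm_sub _ _ _
        have h4 : ‖z' - z‖ ≤ ‖z' - z‖ / δ * ‖z - a‖ := by
          rw [div_mul_eq_mul_div, le_div_iff₀ hδ]
          exact mul_le_mul_of_nonneg_left h1 (norm_nonneg _)
        rw [hC, add_mul, one_mul]
        linarith
      have h5 := ih fun r hr => hs r (Multiset.mem_cons_of_mem hr)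
      rw [Multiset.map_cons, Multiset.map_cons, Multiset.prod_cons, Multiset.prod_cons, norm_mul,
        norm_mul, Multiset.card_cons, pow_succ']
      calc ‖z' - a‖ * ‖(s.map fun r => z' - r).prod‖
          ≤ (C * ‖z - a‖) * (C ^ s.card * ‖(s.map fun r => z - r).prod‖) :=
            mul_le_mul h2 h5 (norm_nonneg _) (by positivity)
        _ = _ := by ring
  rw [hsp.eval_eq_prod_roots z', hsp.eval_eq_prod_roots z, norm_mul, norm_mul]
  have h6 := hprod g.roots fun r hr => hroots r ((Polynomial.mem_roots hg).1 hr)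
  have h7 : C ^ g.roots.card ≤ C ^ d := pow_le_pow_right₀ hC1 hcard
  calc ‖g.leadingCoeff‖ * ‖(g.roots.map fun r => z' - r).prod‖
      ≤ ‖g.leadingCoeff‖ * (C ^ d * ‖(g.roots.map fun r => z - r).prod‖) :=
        mul_le_mul_of_nonneg_left (h6.trans (mul_le_mul_of_nonneg_right h7 (norm_nonneg _)))
          (norm_nonneg _)
    _ = _ := by ring

/-- Interior points of the hyperbolicity cone. -/
def IsInt (p : MvPolynomial ι ℝ) (e v : ι → ℝ) : Prop :=
  v ∈ hypCone p e ∧ eval v p ≠ 0

theorem int_ne (hE : IsHyperbolic d p e) {v : ι → ℝ} (hv : IsInt p e v) {τ : ℝ} (hτ : 0 ≤ τ) :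
    eval (v + τ • e) p ≠ 0 := by
  rcases hτ.eq_or_lt with rfl | h
  · simpa using hv.2
  · exact (mem_iff hE v).1 hv.1 τ h

theorem int_add_e (hE : IsHyperbolic d p e) {v : ι → ℝ} (hv : v ∈ hypCone p e) {τ : ℝ}
    (hτ : 0 < τ) : IsInt p e (v + τ • e) := by
  refine ⟨(mem_iff hE _).2 fun s hs => ?_, (mem_iff hE v).1 hv τ hτ⟩
  rw [add_assoc, ← add_smul]
  exact (mem_iff hE v).1 hv _ (by linarith)

theorem int_e (hE : IsHyperbolic d p e) : IsInt p e e := by
  simpa using int_add_e hE (zero_mem hE) (zero_lt_one (α := ℝ))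

theorem int_smul (hE : IsHyperbolic d p e) {v : ι → ℝ} (hv : IsInt p e v) {a : ℝ} (ha : 0 < a) :
    IsInt p e (a • v) :=
  ⟨smul_mem hE hv.1 ha.le, by
    rw [eval_smul' p hE.1]
    exact mul_ne_zero (pow_ne_zero d ha.ne') hv.2⟩

theorem int_pos (hE : IsHyperbolic d p e) {v : ι → ℝ} (hv : IsInt p e v) : 0 < eval v p := by
  have hc : Continuous fun r : ℝ => eval (e + r • v) p :=
    (MvPolynomial.continuous_eval p).comp (by fun_prop)
  obtain ⟨r, hr, hpos⟩ : ∃ r : ℝ, 0 < r ∧ 0 < eval (e + r • v) p := by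
    have h0 : 0 < eval (e + (0 : ℝ) • v) p := by simpa using hE.2.1
    obtain ⟨δ, hδ, h⟩ := Metric.eventually_nhds_iff.1
      (hc.continuousAt.eventually (lt_mem_nhds h0))
    exact ⟨δ / 2, by linarith, h (by rw [dist_zero_right, Real.norm_eq_abs, abs_of_pos (by linarith)]; linarith)⟩
  have hbig : 0 < eval (v + r⁻¹ • e) p := by
    have e1 : v + r⁻¹ • e = r⁻¹ • (e + r • v) := by
      rw [smul_add, smul_smul, inv_mul_cancel₀ hr.ne', one_smul, add_comm]
    rw [e1, eval_smul' p hE.1]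
    positivity
  by_contra hcon
  rw [not_lt] at hcon
  have hc2 : ContinuousOn (fun t : ℝ => eval (v + t • e) p) (Set.Icc 0 r⁻¹) :=
    ((MvPolynomial.continuous_eval p).comp (by fun_prop)).continuousOn
  obtain ⟨t, ht, h0⟩ := intermediate_value_Icc (inv_nonneg.2 hr.le) hc2
    (show (0 : ℝ) ∈ Set.Icc _ _ from ⟨by simpa using hcon, hbig.le⟩)
  exact int_ne hE hv ht.1 h0

theorem int_shrink (hE : IsHyperbolic d p e) {v : ι → ℝ} (hv : IsInt p e v) :
    ∃ α : ℝ, 0 < α ∧ IsInt p e (v - α • e) := by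
  have hc : Continuous fun t : ℝ => eval (v + t • e) p :=
    (MvPolynomial.continuous_eval p).comp (by fun_prop)
  obtain ⟨δ, hδ, h⟩ := Metric.eventually_nhds_iff.1
    (hc.continuousAt.eventually (isOpen_ne.mem_nhds (show eval (v + (0 : ℝ) • e) p ≠ 0 by
      simpa using hv.2)))
  have key : ∀ τ : ℝ, 0 ≤ τ → eval (v - (δ / 2) • e + τ • e) p ≠ 0 := by
    intro τ hτ
    rw [show v - (δ / 2) • e + τ • e = v + (τ - δ / 2) • e by rw [sub_smul]; abel]
    rcases le_or_gt 0 (τ - δ / 2) with h1 | h1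
    · exact int_ne hE hv h1
    · refine h ?_
      rw [dist_zero_right, Real.norm_eq_abs, abs_of_neg h1]
      linarith
  refine ⟨δ / 2, by linarith, (mem_iff hE _).2 fun τ hτ => key τ hτ.le, ?_⟩
  simpa using key 0 le_rfl

variable [Fintype ι]

theorem int_open (hE : IsHyperbolic d p e) {v : ι → ℝ} (hv : IsInt p e v) :
    ∀ᶠ y in 𝓝 v, IsInt p e y := by
  obtain ⟨δ, hδ, hfar⟩ := near_ray hE
  set R : ℝ := (‖v‖ + 1) / δ with hR
  have hRpos : 0 < R := by positivity
  have h1 : ∀ᶠ y in 𝓝 v, ∀ t ∈ Set.Icc (0 : ℝ) R, eval (y + t • e) p ≠ 0 := by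
    refine isCompact_Icc.eventually_forall_of_forall_eventually fun t ht => ?_
    have hc : Continuous fun z : (ι → ℝ) × ℝ => eval (z.1 + z.2 • e) p :=
      (MvPolynomial.continuous_eval p).comp (by fun_prop)
    have h : ∀ᶠ r in 𝓝 (eval (v + t • e) p), r ≠ (0 : ℝ) :=
      isOpen_ne.mem_nhds (int_ne hE hv ht.1)
    exact (hc.continuousAt (x := (v, t))).tendsto.eventually h
  have h2 : ∀ᶠ y in 𝓝 v, ‖y‖ < ‖v‖ + 1 :=
    continuous_norm.continuousAt.eventually (gt_mem_nhds (by linarith))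
  filter_upwards [h1, h2] with y hy hy2
  refine ⟨(mem_iff hE y).2 fun τ hτ => ?_, by simpa using hy 0 ⟨le_rfl, hRpos.le⟩⟩
  rcases le_or_gt τ R with h3 | h3
  · exact hy τ ⟨hτ.le, h3⟩
  · rw [add_comm]
    refine hfar τ y hτ (hy2.trans_le ?_)
    rw [hR, div_lt_iff₀ hδ] at h3
    linarith

theorem int_stable (hE : IsHyperbolic d p e) (x : ι → ℝ) {v : ι → ℝ} (hv : IsInt p e v) :
    aeval (fun i => (x i : ℂ) + Complex.I * (v i : ℂ)) p ≠ 0 := by
  obtain ⟨α, hα, hw⟩ := int_shrink hE hv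
  have h := stable hE x hw.1 hα
  simpa using h

/-- Restrictions to lines in interior directions are real-rooted. -/
theorem dir_real (hE : IsHyperbolic d p e) (x : ι → ℝ) {v : ι → ℝ} (hv : IsInt p e v) {w : ℂ}
    (hw : w.im ≠ 0) : aeval (fun i => (x i : ℂ) + w * (v i : ℂ)) p ≠ 0 := by
  rcases lt_or_gt_of_ne hw with h | h
  · have h1 := int_stable hE (-(x + w.re • v)) (int_smul hE hv (neg_pos.2 h))
    intro h0
    refine h1 ?_
    have e1 : (fun i => (((-(x + w.re • v)) i : ℝ) : ℂ) + Complex.I * (((-w.im) • v) i : ℝ)) =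
        (-1 : ℂ) • fun i => (x i : ℂ) + w * (v i : ℂ) := by
      funext i
      simp only [Pi.neg_apply, Pi.add_apply, Pi.smul_apply, smul_eq_mul]
      conv_rhs => rw [← Complex.re_add_im w]
      push_cast
      ring
    rw [e1, aeval_smul p hE.1, h0, mul_zero]
  · have h1 := int_stable hE (x + w.re • v) (int_smul hE hv h)
    intro h0
    refine h1 ?_
    rw [← h0]
    congr 2
    funext i
    simp only [Pi.add_apply, Pi.smul_apply, smul_eq_mul]
    conv_rhs => rw [← Complex.re_add_im w]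
    push_cast
    ring

/-- Restrictions to lines through interior points are real-rooted. -/
theorem base_real (hE : IsHyperbolic d p e) {y : ι → ℝ} (hy : IsInt p e y) (z : ι → ℝ) {w : ℂ}
    (hw : w.im ≠ 0) : aeval (fun i => (y i : ℂ) + w * (z i : ℂ)) p ≠ 0 := by
  have hw0 : w ≠ 0 := fun h => hw (by simp [h])
  have him : (w⁻¹).im ≠ 0 := by
    rw [Complex.inv_im]
    exact div_ne_zero (neg_ne_zero.2 hw) (Complex.normSq_pos.2 hw0).ne'
  have e1 : (fun i => (y i : ℂ) + w * (z i : ℂ)) =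
      w • fun i => (z i : ℂ) + w⁻¹ * (y i : ℂ) := by
    funext i
    simp only [Pi.smul_apply, smul_eq_mul]
    field_simp
    ring
  rw [e1, aeval_smul p hE.1]
  exact mul_ne_zero (pow_ne_zero d hw0) (dir_real hE z hy him)

theorem eval_add_int_ne (hE : IsHyperbolic d p e) {y v : ι → ℝ} (hy : y ∈ hypCone p e)
    (hv : IsInt p e v) : eval (y + v) p ≠ 0 := by
  obtain ⟨α, hα, hv'⟩ := int_shrink hE hv
  set u : ι → ℝ := v - α • e with hu
  set c : Set.Icc (0 : ℝ) 1 → ι → ℝ := fun l => (1 - l.1) • y + (α + l.1) • e with hc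
  have hcint : ∀ l, IsInt p e (c l) := fun l =>
    int_add_e hE (smul_mem hE hy (by linarith [l.2.2])) (by linarith [l.2.1])
  have := Subtype.preconnectedSpace (isPreconnected_Icc (a := (0 : ℝ)) (b := 1))
  have hone : (1 : ℝ) ∈ Set.Icc (0 : ℝ) 1 := ⟨zero_le_one, le_rfl⟩
  have key := no_roots_of_connected p hE.1 (h := fun i => (u i : ℂ))
    (by rw [aeval_real]; exact_mod_cast hv'.2)
    (c := fun l i => (c l i : ℂ))
    (continuous_pi fun i => Complex.continuous_ofReal.comp ((continuous_apply i).comp (by fun_prop)))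
    (Φ := Complex.re) Complex.continuous_re
    (by
      intro l w hw h0
      by_cases him : w.im = 0
      · have hw0 : w = 0 := Complex.ext hw him
        rw [hw0, zero_smul, zero_add, aeval_real] at h0
        exact (hcint l).2 (by exact_mod_cast h0)
      · refine base_real hE (hcint l) u him ?_
        rw [← h0]
        congr 2
        funext i
        simp [add_comm])
    ⟨1, hone⟩ (by
      intro w hw h0
      by_cases him : w.im = 0
      · have hwr : w = (w.re : ℂ) := Complex.ext rfl (by simp [him])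
        have h1 : IsInt p e (w.re • u + (α + 1) • e) :=
          int_add_e hE (smul_mem hE hv'.1 hw) (by linarith)
        refine h1.2 ?_
        have : aeval (fun i => (((w.re • u + (α + 1) • e) i : ℝ) : ℂ)) p = 0 := by
          rw [← h0]
          congr 2
          funext i
          rw [hwr]
          simp [hc]
        rw [aeval_real] at this
        exact_mod_cast this
      · refine base_real hE (hcint ⟨1, hone⟩) u him ?_
        rw [← h0]
        congr 2
        funext i
        simp [add_comm])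
  have h2 := key ⟨0, le_rfl, zero_le_one⟩ 1 (by simp)
  intro h0
  refine h2 ?_
  have e1 : ((1 : ℂ) • (fun i => (u i : ℂ)) + fun i => (c ⟨0, le_rfl, zero_le_one⟩ i : ℂ)) =
      fun i => ((y + v) i : ℂ) := by
    funext i
    simp [hc, hu]
    ring
  rw [e1, aeval_real, h0]
  simp

theorem int_add (hE : IsHyperbolic d p e) {y v : ι → ℝ} (hy : y ∈ hypCone p e)
    (hv : IsInt p e v) : IsInt p e (y + v) := by
  refine ⟨(mem_iff hE _).2 fun τ hτ => ?_, eval_add_int_ne hE hy hv⟩
  rw [add_assoc]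
  exact eval_add_int_ne hE hy (int_add_e hE hv.1 hτ)

theorem mem_add (hE : IsHyperbolic d p e) {y z : ι → ℝ} (hy : y ∈ hypCone p e)
    (hz : z ∈ hypCone p e) : y + z ∈ hypCone p e := by
  refine (mem_iff hE _).2 fun τ hτ => ?_
  rw [add_assoc]
  exact eval_add_int_ne hE hy (int_add_e hE hz hτ)

end Vale.Agent.P256
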