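import Vale.Agent.P256.Corner.Taylor
import Vale.Agent.P256.Corner.Interior

/-!
# P256: expansions at a zero and first divided differences
-/

namespace Vale.Agent.P256

open MvPolynomial Filter Topology

variable {ι : Type} {d k : ℕ} {p : MvPolynomial ι ℝ} {c e : ι → ℝ}

/-- A bound for the degrees occurring in the expansion at `c`. -/
noncomputable def expLen (p : MvPolynomial ι ℝ) (c : ι → ℝ) : ℕ :=
  (shiftPoly p c).totalDegree + 1

/-- The quotient `p (c + r u) / r ^ k` as a polynomial expression. -/
noncomputable def locS {A : Type} [CommRing A] [Algebra ℝ A] (p : MvPolynomial ι ℝ) (c : ι → ℝ)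
    (k : ℕ) (r : A) (u : ι → A) : A :=
  ∑ i ∈ Finset.range (expLen p c), r ^ i * aeval u (tayl p c (k + i))

theorem expand {A : Type} [CommRing A] [Algebra ℝ A] (hk : IsMult p c k) (r : A) (u : ι → A) :
    aeval (fun i => r * u i + algebraMap ℝ A (c i)) p = r ^ k * locS p c k r u := by
  rw [aeval_sum_tayl p c (N := k + expLen p c) (by rw [expLen]; omega), Finset.sum_range_add,
    Finset.sum_eq_zero (fun m hm => by rw [hk.1 m (Finset.mem_range.1 hm), map_zero]),
    zero_add, locS, Finset.mul_sum]
  refine Finset.sum_congr rfl fun i _ => ?_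
  rw [aeval_hom (tayl_homogeneous p c _), pow_add, mul_assoc]

theorem locS_zero {A : Type} [CommRing A] [Algebra ℝ A] (u : ι → A) :
    locS p c k (0 : A) u = aeval u (tayl p c k) := by
  rw [locS, expLen, Finset.sum_range_succ']
  simp [zero_pow]

theorem expandR (hk : IsMult p c k) (r : ℝ) (u : ι → ℝ) :
    eval (c + r • u) p = r ^ k * locS p c k r u := by
  rw [← expand hk]
  simp [aeval_eq_eval, add_comm, Pi.add_def, Pi.smul_def]

theorem expandC (hk : IsMult p c k) (r : ℂ) (u : ι → ℂ) :
    aeval (fun i => r * u i + (c i : ℂ)) p = r ^ k * locS p c k r u :=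
  expand hk r u

theorem locS_ofReal (r : ℝ) (u : ι → ℝ) :
    locS p c k (r : ℂ) (fun i => (u i : ℂ)) = ((locS p c k r u : ℝ) : ℂ) := by
  rw [locS, locS, Complex.ofReal_sum]
  refine Finset.sum_congr rfl fun i _ => ?_
  rw [aeval_real, aeval_eq_eval]
  simp

theorem locS_continuous {A : Type} [TopologicalSpace A] {f : A → ℝ} {g : A → ι → ℝ}
    (hf : Continuous f) (hg : Continuous g) : Continuous fun a => locS p c k (f a) (g a) := by
  unfold locS
  simp only [aeval_eq_eval]
  exact continuous_finsetSum _ fun i _ =>
    (hf.pow i).mul ((MvPolynomial.continuous_eval _).comp hg)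

theorem locS_continuousC {A : Type} [TopologicalSpace A] {f : A → ℂ} {g : A → ι → ℂ}
    (hf : Continuous f) (hg : Continuous g) : Continuous fun a => locS p c k (f a) (g a) := by
  unfold locS
  exact continuous_finsetSum _ fun i _ => (hf.pow i).mul (continuous_aeval_comp _ hg)

/-- The first divided difference in direction `v`. -/
theorem exists_divdiff (F : MvPolynomial ι ℝ) (v : ι → ℝ) :
    ∃ R : (ι → ℝ) × ℝ → ℝ, Continuous R ∧
      (∀ u τ, eval (u + τ • v) F = eval u F + τ * R (u, τ)) ∧
      ∀ u, R (u, 0) = (lineP u v F).coeff 1 := by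
  induction F using MvPolynomial.induction_on with
  | C a => exact ⟨fun _ => 0, continuous_const, fun u τ => by simp, fun u => by simp [lineP]⟩
  | add F G hF hG =>
    obtain ⟨R, hR, h1, h2⟩ := hF
    obtain ⟨S, hS, g1, g2⟩ := hG
    exact ⟨fun z => R z + S z, hR.add hS, fun u τ => by simp only [map_add, h1, g1]; ring,
      fun u => by simp [h2, g2]⟩
  | mul_X F i hF =>
    obtain ⟨R, hR, h1, h2⟩ := hF
    refine ⟨fun z => R z * (z.1 i + z.2 * v i) + eval z.1 F * v i, ?_, fun u τ => ?_, fun u => ?_⟩
    · exact (hR.mul (((continuous_apply i).comp continuous_fst).add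
        (continuous_snd.mul continuous_const))).add
        (((MvPolynomial.continuous_eval F).comp continuous_fst).mul continuous_const)
    · simp only [map_mul, eval_X, h1, Pi.add_apply, Pi.smul_apply, smul_eq_mul]
      ring
    · have h0 : (lineP u v F).coeff 0 = eval u F := by
        rw [Polynomial.coeff_zero_eq_eval_zero, lineP_eval]
        simp
      simp only [map_mul]
      rw [Polynomial.coeff_mul, Finset.Nat.antidiagonal_succ, Finset.sum_cons]
      simp [lineP, h2] at h0 ⊢
      rw [h0]
      ring

/-- Lower bound along interior increments. -/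
theorem mono_bound [Fintype ι] (hE : IsHyperbolic d p e) {y h : ι → ℝ} (hy : y ∈ hypCone p e)
    (hh : IsInt p e h) : |eval y p| ≤ 2 ^ d * |eval (y + h) p| := by
  set g := linePoly p (fun i => (h i : ℂ)) (fun i => (y i : ℂ)) with hg
  have hroots : ∀ r : ℂ, g.eval r = 0 → (1 : ℝ) ≤ ‖1 - r‖ := by
    intro r hr
    rw [hg, linePoly_eval] at hr
    have e1 : (r • (fun i => (h i : ℂ)) + fun i => (y i : ℂ)) =
        fun i => (y i : ℂ) + r * (h i : ℂ) := by funext i; simp [add_comm]
    rw [e1] at hr
    have him : r.im = 0 := not_not.1 fun h' => dir_real hE y hh h' hr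
    have hre : r.re ≤ 0 := by
      refine not_lt.1 fun hpos => (int_add hE hy (int_smul hE hh hpos)).2 ?_
      have : aeval (fun i => (((y + r.re • h) i : ℝ) : ℂ)) p = 0 := by
        rw [← hr]
        congr 2
        funext i
        have : (r.re : ℂ) = r := Complex.ext rfl (by simp [him])
        simp [this]
      rw [aeval_real] at this
      exact_mod_cast this
    refine le_trans ?_ (Complex.re_le_norm _)
    simp
    linarith
  have hb := root_bound (z' := 0) (linePoly_degree p hE.1 _ _).1 zero_lt_one hroots
  rw [linePoly_eval, linePoly_eval, zero_smul, zero_add, one_smul, aeval_real] at hb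
  have e2 : ((fun i => (h i : ℂ)) + fun i => (y i : ℂ)) = fun i => (((y + h) i : ℝ) : ℂ) := by
    funext i; simp [add_comm]
  rw [e2, aeval_real] at hb
  norm_num at hb
  exact hb

end Vale.Agent.P256
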