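import Vale.Agent.P256.Corner.Localize

/-!
# P256: the sign of the second term at a flat direction
-/

namespace Vale.Agent.P256

open MvPolynomial Filter Topology

variable {ι : Type} {d k : ℕ} {p : MvPolynomial ι ℝ} {c e : ι → ℝ}

theorem exists_nonreal_root (n : ℕ) (κ : ℝ) (hκ : κ ≠ 0) (h : 3 ≤ n ∨ (n = 2 ∧ κ < 0)) :
    ∃ ζ : ℂ, ζ.im ≠ 0 ∧ ζ ^ n = (κ : ℂ) := by
  obtain ⟨ζ, hζ⟩ := IsAlgClosed.exists_pow_nat_eq (κ : ℂ) (n := n) (by omega)
  by_cases hre : ζ.im = 0
  swap
  · exact ⟨ζ, hre, hζ⟩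
  have hr : (ζ.re : ℂ) = ζ := Complex.ext rfl (by simp [hre])
  rcases h with h | ⟨rfl, hneg⟩
  · refine ⟨ζ * Complex.exp (2 * Real.pi * Complex.I / n), ?_, ?_⟩
    · have hζ0 : ζ.re ≠ 0 := by
        intro h0
        rw [← hr, h0, Complex.ofReal_zero, zero_pow (by omega)] at hζ
        exact hκ (by exact_mod_cast hζ.symm)
      have e1 : (2 * Real.pi * Complex.I / n : ℂ) = ((2 * Real.pi / n : ℝ) : ℂ) * Complex.I := by
        push_cast
        ring
      rw [← hr, e1, Complex.im_ofReal_mul, Complex.exp_ofReal_mul_I_im]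
      refine mul_ne_zero hζ0 (Real.sin_pos_of_pos_of_lt_pi (by positivity) ?_).ne'
      have hn : (3 : ℝ) ≤ n := by exact_mod_cast h
      rw [div_lt_iff₀ (by linarith)]
      nlinarith [Real.pi_pos]
    · rw [mul_pow, hζ, (Complex.isPrimitiveRoot_exp n (by omega)).pow_eq_one, mul_one]
  · have : ζ.re ^ 2 = κ := by
      rw [← hr] at hζ
      exact_mod_cast hζ
    nlinarith [sq_nonneg ζ.re]

theorem linePoly_real (F : MvPolynomial ι ℝ) (w v : ι → ℝ) (n : ℕ) :
    (linePoly F (fun i => (v i : ℂ)) fun i => (w i : ℂ)).coeff n =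
      (((lineP w v F).coeff n : ℝ) : ℂ) := by
  have h : linePoly F (fun i => (v i : ℂ)) (fun i => (w i : ℂ)) =
      (lineP w v F).map (algebraMap ℝ ℂ) := by
    induction F using MvPolynomial.induction_on with
    | C a => simp [linePoly, lineP, IsScalarTower.algebraMap_apply ℝ ℂ (Polynomial ℂ)]
    | add F G hF hG =>
      simp only [linePoly, map_add, Polynomial.map_add] at *
      rw [hF, hG]
    | mul_X F i hF =>
      simp only [linePoly, map_mul, Polynomial.map_mul] at *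
      rw [hF]
      simp [lineP, add_comm]
  rw [h, Polynomial.coeff_map]
  rfl

/-- The first coefficient of `r ↦ g (ζ w + r e)`. -/
theorem scaled_coeff_one {g : MvPolynomial ι ℝ} (hg : g.IsHomogeneous k) (hk : 1 ≤ k) (w e : ι → ℝ)
    {ζ : ℂ} (hζ : ζ ≠ 0) :
    (linePoly g (fun i => (e i : ℂ)) fun i => ζ * (w i : ℂ)).coeff 1 =
      ζ ^ (k - 1) * (((lineP w e g).coeff 1 : ℝ) : ℂ) := by
  rw [← linePoly_real]
  have h : linePoly g (fun i => (e i : ℂ)) (fun i => ζ * (w i : ℂ)) =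
      Polynomial.C (ζ ^ k) * (linePoly g (fun i => (e i : ℂ)) fun i => (w i : ℂ)).comp
        (Polynomial.C ζ⁻¹ * Polynomial.X) := by
    refine Polynomial.funext fun r => ?_
    rw [Polynomial.eval_mul, Polynomial.eval_comp, linePoly_eval, linePoly_eval,
      Polynomial.eval_C, ← aeval_hom hg]
    congr 2
    funext i
    simp
    field_simp
  rw [h, Polynomial.coeff_C_mul, Polynomial.comp_C_mul_X_coeff]
  obtain ⟨m, rfl⟩ : ∃ m, k = m + 1 := ⟨k - 1, by omega⟩
  rw [Nat.add_sub_cancel]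
  field_simp
  ring

variable [Fintype ι]

/-- If the localisation vanishes at `w` with nonzero derivative along `e`, then `c + s w` is a line
of zeros or the next term is negative. -/
theorem flat_sign (hE : IsHyperbolic d p e) (hc : c ∈ hypCone p e) (hk : IsMult p c k)
    (hk1 : 1 ≤ k) {w : ι → ℝ} (hw : eval w (tayl p c k) = 0)
    (hb : 0 < (lineP w e (tayl p c k)).coeff 1) :
    (∀ s : ℝ, eval (c + s • w) p = 0) ∨ eval w (tayl p c (k + 1)) < 0 := by
  classical
  by_cases hall : ∀ i, eval w (tayl p c (k + i)) = 0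
  · left
    intro s
    rw [expandR hk, locS]
    simp [aeval_eq_eval, hall]
  rw [not_forall] at hall
  set j := Nat.find hall with hj
  set a := eval w (tayl p c (k + j)) with ha
  set b := (lineP w e (tayl p c k)).coeff 1 with hbdef
  have haj : a ≠ 0 := Nat.find_spec hall
  have hlow : ∀ i < j, eval w (tayl p c (k + i)) = 0 := fun i hi =>
    not_not.1 (Nat.find_min hall hi)
  have hj1 : 1 ≤ j := by
    by_contra h
    exact haj (by rw [ha, show j = 0 by omega]; simpa using hw)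
  have hjlen : j < expLen p c := by
    by_contra h
    refine haj ?_
    rw [ha, tayl_def, homogeneousComponent_eq_zero _ _ (by rw [expLen] at h; omega), map_zero]
  by_cases hgood : j = 1 ∧ a < 0
  · right
    rw [show (1 : ℕ) = j from hgood.1.symm]
    exact hgood.2
  exfalso
  obtain ⟨ζ, hζim, hζ⟩ := exists_nonreal_root (j + 1) (-b / a) (by
      simp [haj, hb.ne']) (by
    rcases eq_or_lt_of_le hj1 with h | h
    · refine Or.inr ⟨by omega, div_neg_of_neg_of_pos (by linarith) ?_⟩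
      exact lt_of_le_of_ne (not_lt.1 fun h' => hgood ⟨h.symm, h'⟩) (Ne.symm haj)
    · exact Or.inl (by omega))
  obtain ⟨s, hs, hsne⟩ : ∃ s : ℝ, 0 < s ∧ b + a * s ^ (j + 1) ≠ 0 := by
    by_cases h1 : b + a = 0
    · refine ⟨2, two_pos, fun h2 => haj ?_⟩
      have h3 : (1 : ℝ) < 2 ^ (j + 1) := one_lt_pow₀ one_lt_two (by omega)
      nlinarith
    · exact ⟨1, one_pos, by simpa using h1⟩
  have hζ0 : ζ ≠ 0 := fun h => hζim (by simp [h])
  set eC : ι → ℂ := fun i => (e i : ℂ) with heC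
  set L : ℕ → ℂ → Polynomial ℂ := fun i z =>
    linePoly (tayl p c (k + i)) eC fun l => z * (w l : ℂ) with hL
  have hTw : ∀ (i : ℕ) (z : ℂ), (L i z).coeff 0 =
      z ^ (k + i) * ((eval w (tayl p c (k + i)) : ℝ) : ℂ) := by
    intro i z
    rw [Polynomial.coeff_zero_eq_eval_zero, hL, linePoly_eval, zero_smul, zero_add,
      aeval_hom (tayl_homogeneous p c _), aeval_real]
  set G : ℂ → ℝ → ℂ := fun z ρ =>
    (∑ i ∈ Finset.range j, (ρ : ℂ) ^ i * (L i z).divX.eval ((ρ : ℂ) ^ j)) +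
      ∑ i ∈ Finset.Ico j (expLen p c), (ρ : ℂ) ^ (i - j) * (L i z).eval ((ρ : ℂ) ^ j) with hG
  have hGcont : ∀ z, Continuous (G z) := fun z => by
    rw [hG]
    fun_prop
  have hfac : ∀ (z : ℂ) (ρ : ℝ),
      aeval (fun i => (((c + ρ ^ (j + 1) • e) i : ℝ) : ℂ) + z * (((ρ • w) i : ℝ) : ℂ)) p =
        (ρ : ℂ) ^ (k + j) * G z ρ := by
    intro z ρ
    have e1 : (fun i => (((c + ρ ^ (j + 1) • e) i : ℝ) : ℂ) + z * (((ρ • w) i : ℝ) : ℂ)) =
        fun i => (ρ : ℂ) * (z * (w i : ℂ) + (ρ : ℂ) ^ j * (e i : ℂ)) + (c i : ℂ) := by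
      funext i
      simp
      ring
    rw [e1, expandC hk, locS, pow_add, mul_assoc]
    congr 1
    rw [← Finset.sum_range_add_sum_Ico _ hjlen.le, hG, mul_add, Finset.mul_sum, Finset.mul_sum]
    have hev : ∀ i, aeval (fun l => z * (w l : ℂ) + (ρ : ℂ) ^ j * (e l : ℂ))
        (tayl p c (k + i)) = (L i z).eval ((ρ : ℂ) ^ j) := by
      intro i
      rw [hL, linePoly_eval]
      congr 2
      funext l
      simp [heC, add_comm]
    congr 1
    · refine Finset.sum_congr rfl fun i hi => ?_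
      have hdec := congrArg (Polynomial.eval ((ρ : ℂ) ^ j)) (Polynomial.X_mul_divX_add (L i z))
      rw [hTw, hlow i (Finset.mem_range.1 hi), Complex.ofReal_zero, mul_zero, map_zero,
        add_zero, Polynomial.eval_mul, Polynomial.eval_X] at hdec
      rw [hev, ← hdec]
      ring
    · refine Finset.sum_congr rfl fun i hi => ?_
      rw [hev, ← mul_assoc, ← pow_add, Nat.add_sub_cancel' (Finset.mem_Ico.1 hi).1]
  have hzero : ∀ z : ℂ, z ≠ 0 →
      G z 0 = z ^ (k - 1) * ((b : ℂ) + (a : ℂ) * z ^ (j + 1)) := by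
    intro z hz
    have h1 : (∑ i ∈ Finset.range j, ((0 : ℝ) : ℂ) ^ i *
        (L i z).divX.eval (((0 : ℝ) : ℂ) ^ j)) = z ^ (k - 1) * (b : ℂ) := by
      rw [Finset.sum_eq_single 0 (fun i _ hi => by simp [zero_pow hi])
        (fun h => absurd (Finset.mem_range.2 (by omega)) h)]
      rw [pow_zero, one_mul, Complex.ofReal_zero, zero_pow (by omega : j ≠ 0),
        ← Polynomial.coeff_zero_eq_eval_zero, Polynomial.coeff_divX, hbdef]
      simp only [hL, heC, add_zero, zero_add]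
      exact scaled_coeff_one (tayl_homogeneous p c k) hk1 w e hz
    have h2 : (∑ i ∈ Finset.Ico j (expLen p c), ((0 : ℝ) : ℂ) ^ (i - j) *
        (L i z).eval (((0 : ℝ) : ℂ) ^ j)) = z ^ (k + j) * (a : ℂ) := by
      rw [Finset.sum_eq_single j (fun i hi hij => by
          simp [zero_pow (by rw [Finset.mem_Ico] at hi; omega : i - j ≠ 0)])
        (fun h => absurd (Finset.mem_Ico.2 ⟨le_rfl, hjlen⟩) h)]
      rw [Nat.sub_self, pow_zero, one_mul, Complex.ofReal_zero, zero_pow (by omega : j ≠ 0),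
        ← Polynomial.coeff_zero_eq_eval_zero, hTw]
    show _ + _ = _
    rw [h1, h2, show k + j = (k - 1) + (j + 1) by omega, pow_add]
    ring
  set C : ℝ := (1 + ‖(s : ℂ) - ζ‖ / |ζ.im|) ^ d with hC
  have key : ∀ ρ : ℝ, 0 < ρ → ‖G s ρ‖ ≤ C * ‖G ζ ρ‖ := by
    intro ρ hρ
    have hy : IsInt p e (c + ρ ^ (j + 1) • e) := int_add_e hE hc (pow_pos hρ _)
    have hroots : ∀ r : ℂ, (linePoly p (fun i => (((ρ • w) i : ℝ) : ℂ))
        fun i => (((c + ρ ^ (j + 1) • e) i : ℝ) : ℂ)).eval r = 0 → |ζ.im| ≤ ‖ζ - r‖ := by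
      intro r hr
      rw [linePoly_eval] at hr
      have him : r.im = 0 := not_not.1 fun h => base_real hE hy (ρ • w) h (by
        rw [← hr]
        congr 2
        funext i
        simp [add_comm])
      refine le_trans ?_ (Complex.abs_im_le_norm _)
      simp [him]
    have hb' := root_bound (z' := (s : ℂ)) (linePoly_degree p hE.1 _ _).1 (abs_pos.2 hζim) hroots
    have e2 : ∀ z : ℂ, (z • (fun i => (((ρ • w) i : ℝ) : ℂ)) +
        fun i => (((c + ρ ^ (j + 1) • e) i : ℝ) : ℂ)) =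
        fun i => (((c + ρ ^ (j + 1) • e) i : ℝ) : ℂ) + z * (((ρ • w) i : ℝ) : ℂ) := by
      intro z
      funext i
      simp [add_comm]
    rw [linePoly_eval, linePoly_eval, e2, e2, hfac, hfac, norm_mul, norm_mul, ← hC, ← mul_assoc,
      mul_comm C, mul_assoc] at hb'
    exact le_of_mul_le_mul_left hb' (norm_pos_iff.2 (pow_ne_zero _ (by exact_mod_cast hρ.ne')))
  have h := le_of_tendsto_of_tendsto (b := 𝓝[>] (0 : ℝ))
    (((hGcont s).norm.tendsto 0).mono_left nhdsWithin_le_nhds)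
    (((continuous_const.mul (hGcont ζ).norm).tendsto 0).mono_left nhdsWithin_le_nhds)
    (eventually_nhdsWithin_of_forall key)
  have hkill : (b : ℂ) + (a : ℂ) * ζ ^ (j + 1) = 0 := by
    rw [hζ]
    have : (a : ℂ) ≠ 0 := by exact_mod_cast haj
    push_cast
    field_simp
    ring
  simp only [Pi.mul_apply, hzero ζ hζ0, hkill, mul_zero, norm_zero] at h
  rw [hzero _ (by exact_mod_cast hs.ne'), norm_le_zero_iff] at h
  rcases mul_eq_zero.1 h with h' | h'
  · exact pow_ne_zero _ (by exact_mod_cast hs.ne') h'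
  · exact hsne (by exact_mod_cast h')

end Vale.Agent.P256
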