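import Vale.Agent.P256.Corner.Quadratic

/-!
# P256: Jensen's inequality for moment functionals on a small box
-/

namespace Vale.Agent.P256

open MvPolynomial Filter Topology

variable {ι : Type}

/-- Positivity of a linear functional on squares, also against the box constraints. -/
def BoxPos (L : MvPolynomial ι ℝ →ₗ[ℝ] ℝ) (ε : ℝ) (D : ℕ) : Prop :=
  ∀ f : MvPolynomial ι ℝ, f.totalDegree ≤ D →
    0 ≤ L (f ^ 2) ∧ ∀ k, 0 ≤ L ((C (ε ^ 2) - X k ^ 2) * f ^ 2)

/-- The monomial `γ` in the variables `X - a`. -/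
noncomputable def ctrMon (a : ι → ℝ) (γ : ι →₀ ℕ) : MvPolynomial ι ℝ :=
  aeval (fun i => X i - C (a i)) (monomial γ (1 : ℝ))

theorem ctrMon_add (a : ι → ℝ) (γ η : ι →₀ ℕ) :
    ctrMon a (γ + η) = ctrMon a γ * ctrMon a η := by
  rw [ctrMon, ctrMon, ctrMon, ← map_mul, monomial_mul, one_mul]

theorem ctrMon_single (a : ι → ℝ) (i : ι) :
    ctrMon a (Finsupp.single i 1) = X i - C (a i) := by
  rw [ctrMon, ← X]
  simp

theorem totalDegree_ctr (a : ι → ℝ) (i : ι) : (X i - C (a i) : MvPolynomial ι ℝ).totalDegree ≤ 1 := by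
  refine (totalDegree_sub _ _).trans ?_
  simp [totalDegree_X, totalDegree_C]

theorem totalDegree_ctrMon (a : ι → ℝ) (γ : ι →₀ ℕ) :
    (ctrMon a γ).totalDegree ≤ γ.degree := by
  rw [ctrMon, aeval_monomial, map_one, one_mul, Finsupp.prod, Finsupp.degree_apply]
  refine (totalDegree_finsetProd _ _).trans (Finset.sum_le_sum fun i _ => ?_)
  refine (totalDegree_pow _ _).trans ?_
  simpa using Nat.mul_le_mul_left (γ i) (totalDegree_ctr a i)

variable {L : MvPolynomial ι ℝ →ₗ[ℝ] ℝ} {ε : ℝ} {D : ℕ}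

theorem L_C_mul (L : MvPolynomial ι ℝ →ₗ[ℝ] ℝ) (r : ℝ) (f : MvPolynomial ι ℝ) :
    L (C r * f) = r * L f := by
  rw [C_mul', map_smul, smul_eq_mul]

theorem mean_sq_le (h1 : L 1 = 1) (hL : BoxPos L ε D) (hD : 1 ≤ D) (k : ι) :
    (L (X k)) ^ 2 ≤ ε ^ 2 := by
  have hA := (hL (X k - C (L (X k))) ((totalDegree_ctr (fun _ => L (X k)) k).trans hD)).1
  have hB := (hL 1 (by simp)).2 k
  have e1 : (X k - C (L (X k))) ^ 2 = X k ^ 2 + C (-2 * L (X k)) * X k
      + C (L (X k) ^ 2) * 1 := by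
    simp only [map_mul, map_neg, map_pow, map_ofNat]
    ring
  rw [e1, map_add, map_add, L_C_mul, L_C_mul, h1] at hA
  rw [one_pow, mul_one, map_sub, ← mul_one (C (ε ^ 2)), L_C_mul, h1] at hB
  nlinarith

theorem ctr_step (hL : BoxPos L ε D) {a : ι → ℝ} (ha : ∀ k, a k ^ 2 ≤ ε ^ 2) (i : ι)
    {f : MvPolynomial ι ℝ} (hf : f.totalDegree + 1 ≤ D) :
    L (((X i - C (a i)) * f) ^ 2) ≤ 4 * ε ^ 2 * L (f ^ 2) := by
  have hf' : f.totalDegree ≤ D := by omega
  have hg : ((X i + C (a i)) * f).totalDegree ≤ D := by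
    refine (totalDegree_mul _ _).trans ?_
    have : (X i + C (a i) : MvPolynomial ι ℝ).totalDegree ≤ 1 := by
      refine (totalDegree_add _ _).trans ?_
      simp [totalDegree_X, totalDegree_C]
    omega
  have e : C (4 * ε ^ 2) * f ^ 2 - ((X i - C (a i)) * f) ^ 2 =
      C 2 * ((C (ε ^ 2) - X i ^ 2) * f ^ 2) + ((X i + C (a i)) * f) ^ 2 +
        C (2 * (ε ^ 2 - a i ^ 2)) * f ^ 2 := by
    simp only [map_mul, map_sub, map_pow, map_ofNat]
    ring
  have h := congrArg L e
  rw [map_sub, map_add, map_add, L_C_mul, L_C_mul, L_C_mul] at h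
  nlinarith [(hL f hf').1, (hL f hf').2 i, (hL _ hg).1, ha i]

theorem ctr_bound (hL : BoxPos L ε D) {a : ι → ℝ} (ha : ∀ k, a k ^ 2 ≤ ε ^ 2) :
    ∀ (r : ℕ) (γ : ι →₀ ℕ), γ.degree = r → ∀ f : MvPolynomial ι ℝ, f.totalDegree + r ≤ D →
      L ((ctrMon a γ * f) ^ 2) ≤ (4 * ε ^ 2) ^ r * L (f ^ 2) := by
  intro r
  induction r with
  | zero =>
    intro γ hγ f _
    rw [(Finsupp.degree_eq_zero_iff γ).1 hγ]
    simp [ctrMon]
  | succ r ih =>
    intro γ hγ f hf
    obtain ⟨i, hi⟩ : ∃ i, γ i ≠ 0 := by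
      by_contra hcon
      simp only [not_exists, not_not] at hcon
      rw [show γ = 0 from Finsupp.ext hcon, map_zero] at hγ
      omega
    have e : γ = Finsupp.single i 1 + (γ - Finsupp.single i 1) :=
      (add_tsub_cancel_of_le (Finsupp.single_le_iff.2 (Nat.one_le_iff_ne_zero.2 hi))).symm
    have hdeg : (γ - Finsupp.single i 1).degree = r := by
      have h := congrArg Finsupp.degree e
      rw [map_add, Finsupp.degree_single] at h
      omega
    rw [e, ctrMon_add, ctrMon_single, mul_assoc]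
    have hfd : (ctrMon a (γ - Finsupp.single i 1) * f).totalDegree + 1 ≤ D := by
      have h1 := totalDegree_mul (ctrMon a (γ - Finsupp.single i 1)) f
      have h2 := totalDegree_ctrMon a (γ - Finsupp.single i 1)
      omega
    refine (ctr_step hL ha i hfd).trans ?_
    rw [pow_succ' (4 * ε ^ 2) r, mul_assoc (4 * ε ^ 2)]
    exact mul_le_mul_of_nonneg_left (ih _ hdeg f (by omega)) (mul_nonneg (by norm_num) (sq_nonneg ε))

theorem ctrMon_abs_le [Fintype ι] (hL : BoxPos L ε D) (hε : 0 < ε) {a : ι → ℝ}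
    (ha : ∀ k, a k ^ 2 ≤ ε ^ 2) {γ : ι →₀ ℕ} (h2 : 2 ≤ γ.degree) (hD : γ.degree ≤ D) :
    |L (ctrMon a γ)| ≤ (2 * ε) ^ (γ.degree - 2) * ∑ i, L ((X i - C (a i)) ^ 2) := by
  obtain ⟨i, j, γ', hγ, hγ'⟩ := exists_pair h2
  set S := ∑ i, L ((X i - C (a i)) ^ 2) with hS
  set t := (2 * ε) ^ (γ.degree - 2) with ht
  have ht0 : 0 < t := pow_pos (by linarith) _
  set g := ctrMon a γ' * (X j - C (a j)) with hg
  have hctr : ctrMon a γ = (X i - C (a i)) * g := by
    rw [hγ, ctrMon_add, ctrMon_add, ctrMon_single, ctrMon_single, hg]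
    ring
  have hle : ∀ k, L ((X k - C (a k)) ^ 2) ≤ S := fun k =>
    Finset.single_le_sum (fun l _ => (hL _ ((totalDegree_ctr a l).trans (by omega))).1)
      (Finset.mem_univ k)
  have hgsq : L (g ^ 2) ≤ t ^ 2 * S := by
    have h := ctr_bound hL ha γ'.degree γ' rfl (X j - C (a j)) (by
      have := totalDegree_ctr a j
      omega)
    refine h.trans ?_
    have e : (4 * ε ^ 2) ^ γ'.degree = t ^ 2 := by
      rw [ht, ← pow_mul, mul_comm _ 2, pow_mul, show γ.degree - 2 = γ'.degree by omega]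
      ring
    rw [e]
    exact mul_le_mul_of_nonneg_left (hle j) (sq_nonneg t)
  have hgd : g.totalDegree ≤ D := by
    have h1 := totalDegree_mul (ctrMon a γ') (X j - C (a j))
    have h2 := totalDegree_ctrMon a γ'
    have h3 := totalDegree_ctr a j
    rw [hg]
    omega
  have key : ∀ σ : ℝ, σ ^ 2 = 1 → 0 ≤ t ^ 2 * L ((X i - C (a i)) ^ 2) +
      2 * σ * t * L (ctrMon a γ) + L (g ^ 2) := by
    intro σ hσ
    have hd : (C t * (X i - C (a i)) + C σ * g).totalDegree ≤ D := by
      refine (totalDegree_add _ _).trans (max_le ?_ ?_)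
      · refine (totalDegree_mul _ _).trans ?_
        have := totalDegree_ctr a i
        simp only [totalDegree_C]
        omega
      · refine (totalDegree_mul _ _).trans ?_
        simpa [totalDegree_C] using hgd
    have h := (hL _ hd).1
    have e : (C t * (X i - C (a i)) + C σ * g) ^ 2 = C (t ^ 2) * (X i - C (a i)) ^ 2 +
        C (2 * σ * t) * ctrMon a γ + C (σ ^ 2) * g ^ 2 := by
      rw [hctr]
      simp only [map_mul, map_pow, map_ofNat]
      ring
    rw [e, map_add, map_add, L_C_mul, L_C_mul, L_C_mul, hσ, one_mul] at h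
    exact h
  have hp := key 1 (by norm_num)
  have hm := key (-1) (by norm_num)
  have hi := mul_le_mul_of_nonneg_left (hle i) (sq_nonneg t)
  rw [abs_le]
  constructor <;> nlinarith

theorem expansion_at (h : MvPolynomial ι ℝ) (a : ι → ℝ) :
    h = ∑ γ ∈ (shiftU h).support, C (eval a (coeff γ (shiftU h))) * ctrMon a γ := by
  have e1 : aeval (fun i => X i - C (a i)) (shiftPoly h a) = h := by
    rw [aeval_shiftPoly]
    simp
  conv_lhs => rw [← e1, ← shiftU_map]; rw [(shiftU h).as_sum]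
  simp only [map_sum, map_monomial]
  refine Finset.sum_congr rfl fun γ _ => ?_
  rw [ctrMon, aeval_monomial, aeval_monomial, map_one, one_mul, algebraMap_eq]

/-- Jensen's inequality on a small box for a polynomial with definite second order part. -/
theorem jensen [Fintype ι] {h : MvPolynomial ι ℝ}
    (hpos : ∃ c, 0 < c ∧ ∀ v : ι → ℝ, c * ∑ i, v i ^ 2 ≤ eval v (tayl h 0 2)) :
    ∃ (D : ℕ) (ε₀ : ℝ), 0 < ε₀ ∧ ∀ ε, 0 < ε → ε ≤ ε₀ → ∀ L : MvPolynomial ι ℝ →ₗ[ℝ] ℝ,
      L 1 = 1 → BoxPos L ε D → eval (fun i => L (X i)) h ≤ L h := by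
  classical
  obtain ⟨c, hc, hq⟩ := hpos
  set U := shiftU h with hU
  set D := U.totalDegree + 1 with hD
  set cf : (ι →₀ ℕ) → (ι → ℝ) → ℝ := fun γ a => eval a (coeff γ U) with hcf
  set S₂ := U.support.filter fun γ => 2 ≤ γ.degree with hS₂
  set E : (ι → ℝ) × ℝ → ℝ := fun z => ∑ γ ∈ S₂,
    |cf γ z.1 - if γ.degree = 2 then cf γ 0 else 0| * (2 * z.2) ^ (γ.degree - 2) with hE
  have hEc : Continuous E := by
    rw [hE]
    refine continuous_finsetSum _ fun γ _ => ?_
    exact (((MvPolynomial.continuous_eval _).comp continuous_fst).sub continuous_const).abs.mul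
      ((continuous_const.mul continuous_snd).pow _)
  have hE0 : E (0, 0) = 0 := by
    rw [hE]
    refine Finset.sum_eq_zero fun γ hγ => ?_
    rw [hS₂, Finset.mem_filter] at hγ
    by_cases h2 : γ.degree = 2
    · simp [h2]
    · simp [zero_pow (by omega : γ.degree - 2 ≠ 0)]
  obtain ⟨η, hη, hball⟩ := Metric.eventually_nhds_iff.1
    (hEc.continuousAt.eventually (gt_mem_nhds (show E (0, 0) < c by rw [hE0]; exact hc)))
  have hhom : (tayl h 0 2 - C c * ∑ i, X i ^ 2).IsHomogeneous 2 := by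
    refine (tayl_homogeneous h 0 2).sub ((IsHomogeneous.sum _ _ _ fun i _ => ?_).C_mul c)
    exact isHomogeneous_X_pow i 2
  obtain ⟨R, hR⟩ := exists_sq_sum hhom fun v => by
    simp only [map_sub, map_mul, map_sum, map_pow, eval_C, eval_X]
    linarith [hq v]
  refine ⟨D, η / 2, by linarith, fun ε hε hεη L h1 hL => ?_⟩
  set a : ι → ℝ := fun i => L (X i) with ha
  have hasq : ∀ k, a k ^ 2 ≤ ε ^ 2 := fun k => mean_sq_le h1 hL (by omega) k
  set S := ∑ i, L ((X i - C (a i)) ^ 2) with hS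
  have hSnn : 0 ≤ S := Finset.sum_nonneg fun i _ =>
    (hL _ ((totalDegree_ctr a i).trans (by omega))).1
  have hquad : c * S ≤ L (aeval (fun i => X i - C (a i)) (tayl h 0 2)) := by
    have hsq : 0 ≤ L (aeval (fun i => X i - C (a i)) (tayl h 0 2 - C c * ∑ i, X i ^ 2)) := by
      rw [hR]
      simp only [map_sum, map_pow]
      refine Finset.sum_nonneg fun k _ => (hL _ ?_).1
      refine totalDegree_finsetSum_le fun i _ => ?_
      rw [map_mul, aeval_C, aeval_X, algebraMap_eq]
      refine (totalDegree_mul _ _).trans ?_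
      have := totalDegree_ctr a i
      simp only [totalDegree_C]
      omega
    simp only [map_sub, map_mul, map_sum, map_pow, aeval_C, aeval_X, algebraMap_eq, L_C_mul]
      at hsq
    linarith
  have hq2 : tayl h 0 2 = ∑ γ ∈ S₂,
      C (if γ.degree = 2 then cf γ 0 else 0) * monomial γ 1 := by
    have h0 : shiftPoly h 0 = h := by simp [shiftPoly]
    rw [tayl_def, h0]
    conv_lhs => rw [expansion_at h 0]
    rw [map_sum, hS₂, Finset.sum_filter]
    refine Finset.sum_congr rfl fun γ _ => ?_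
    have e : ctrMon (0 : ι → ℝ) γ = monomial γ 1 := by simp [ctrMon]
    rw [homogeneousComponent_C_mul, e,
      homogeneousComponent_of_mem (isHomogeneous_monomial (1 : ℝ) (rfl : γ.degree = γ.degree))]
    by_cases h2 : γ.degree = 2 <;> simp [h2, Ne.symm, hcf, hU]
  have hlow : L h = eval a h + ∑ γ ∈ S₂, cf γ a * L (ctrMon a γ) := by
    conv_lhs => rw [expansion_at h a]
    simp only [map_sum, L_C_mul]
    conv_rhs => rw [expansion_at h a]
    simp only [map_sum, map_mul, eval_C]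
    rw [hS₂, Finset.sum_filter, ← Finset.sum_add_distrib]
    refine Finset.sum_congr rfl fun γ _ => ?_
    rcases lt_or_ge γ.degree 2 with h2 | h2
    · rw [if_neg (by omega), add_zero]
      rcases Nat.eq_zero_or_pos γ.degree with h0 | h0
      · rw [(Finsupp.degree_eq_zero_iff γ).1 h0]
        simp [ctrMon, h1]
      · have hd : γ.degree = 1 := by omega
        obtain ⟨i, rfl⟩ := (Finsupp.sum_eq_one_iff γ).1 (by
          rw [← hd, Finsupp.degree_apply]
          rfl)
        rw [ctrMon_single, map_sub, ← mul_one (C (a i)), L_C_mul, h1, mul_one, mul_one, map_sub,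
          eval_X, eval_C, ha, sub_self]
    · rw [if_pos h2]
      have e : eval a (ctrMon a γ) = 0 := by
        obtain ⟨i, j, γ', rfl, -⟩ := exists_pair h2
        simp [ctrMon_add, ctrMon_single]
      rw [e, mul_zero, zero_add]
  have hsplit : L h = eval a h + L (aeval (fun i => X i - C (a i)) (tayl h 0 2)) +
      ∑ γ ∈ S₂, (cf γ a - if γ.degree = 2 then cf γ 0 else 0) * L (ctrMon a γ) := by
    rw [hlow, hq2]
    simp only [map_sum, map_mul, aeval_C, algebraMap_eq, L_C_mul, sub_mul,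
      Finset.sum_sub_distrib]
    rw [add_assoc]
    simp only [ctrMon]
    ring
  have herr : |∑ γ ∈ S₂, (cf γ a - if γ.degree = 2 then cf γ 0 else 0) * L (ctrMon a γ)| ≤
      E (a, ε) * S := by
    refine (Finset.abs_sum_le_sum_abs _ _).trans ?_
    rw [hE]
    simp only [Finset.sum_mul]
    refine Finset.sum_le_sum fun γ hγ => ?_
    rw [hS₂, Finset.mem_filter] at hγ
    rw [abs_mul, mul_assoc]
    refine mul_le_mul_of_nonneg_left (ctrMon_abs_le hL hε hasq hγ.2 ?_) (abs_nonneg _)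
    have := le_totalDegree hγ.1
    rw [Finsupp.degree_apply]
    change γ.sum (fun _ e => e) ≤ D
    omega
  have hEsmall : E (a, ε) < c := by
    refine hball ?_
    rw [Prod.dist_eq, max_lt_iff, dist_zero_right, dist_zero_right, Real.norm_eq_abs,
      abs_of_pos hε]
    refine ⟨?_, by linarith⟩
    refine (pi_norm_lt_iff hη).2 fun k => ?_
    rw [Real.norm_eq_abs]
    have := abs_le_of_sq_le_sq (hasq k) hε.le
    linarith
  have hES := mul_le_mul_of_nonneg_right hEsmall.le hSnn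
  rw [hsplit]
  linarith [abs_le.1 herr]

end Vale.Agent.P256
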