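import Vale.Agent.P256.Shadow

/-!
# P256: conic semidefinite lifts and moment lifts
-/

namespace Vale.Agent.P256

open MvPolynomial Matrix

variable {ι : Type} [Fintype ι]

/-- A linear image of the solution set of a homogeneous linear matrix inequality. -/
def IsLift (S : Set (ι → ℝ)) : Prop :=
  ∃ (κ κ' : Type) (_ : Fintype κ) (_ : Fintype κ') (π : (κ' → ℝ) →ₗ[ℝ] (ι → ℝ))
    (M : (κ' → ℝ) →ₗ[ℝ] Matrix κ κ ℝ), (∀ v, (M v).IsSymm) ∧ S = π '' {v | (M v).PosSemidef}

omit [Fintype ι] in
theorem lift_zero : IsLift ({0} : Set (ι → ℝ)) := by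
  refine ⟨Empty, Empty, inferInstance, inferInstance, 0, 0, fun v => by simp [Matrix.IsSymm], ?_⟩
  ext x
  simp only [Set.mem_singleton_iff, Set.mem_image, Set.mem_ofPred_eq, LinearMap.zero_apply]
  exact ⟨fun h => ⟨0, Matrix.PosSemidef.zero, h.symm⟩, fun ⟨_, _, h⟩ => h.symm⟩

omit [Fintype ι] in
theorem lift_ray (a : ι → ℝ) : IsLift {y | ∃ t : ℝ, 0 ≤ t ∧ y = t • a} := by
  refine ⟨Unit, Unit, inferInstance, inferInstance,
    (LinearMap.proj (φ := fun _ : Unit => ℝ) ()).smulRight a,
    (Matrix.diagonalLinearMap Unit ℝ ℝ), fun v => Matrix.isSymm_diagonal _, ?_⟩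
  ext y
  simp only [Set.mem_ofPred_eq, Set.mem_image, LinearMap.smulRight_apply, LinearMap.proj_apply,
    Matrix.diagonalLinearMap_apply]
  exact ⟨fun ⟨t, ht, h⟩ =>
      ⟨fun _ => t, Matrix.posSemidef_diagonal_iff.2 fun _ => ht, h.symm⟩,
    fun ⟨v, hv, h⟩ => ⟨v (), Matrix.posSemidef_diagonal_iff.1 hv (), h.symm⟩⟩

omit [Fintype ι] in
theorem lift_add {S T : Set (ι → ℝ)} (hS : IsLift S) (hT : IsLift T) :
    IsLift {x | ∃ y ∈ S, ∃ z ∈ T, x = y + z} := by
  obtain ⟨κ, κ', i1, i2, π, M, hM, rfl⟩ := hS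
  obtain ⟨μ, μ', j1, j2, ρ, N, hN, rfl⟩ := hT
  set l : ((κ' ⊕ μ') → ℝ) →ₗ[ℝ] (κ' → ℝ) := LinearMap.funLeft ℝ ℝ Sum.inl with hl
  set r : ((κ' ⊕ μ') → ℝ) →ₗ[ℝ] (μ' → ℝ) := LinearMap.funLeft ℝ ℝ Sum.inr with hr
  let B : ((κ' ⊕ μ') → ℝ) →ₗ[ℝ] Matrix (κ ⊕ μ) (κ ⊕ μ) ℝ :=
    { toFun := fun v => fromBlocks (M (l v)) 0 0 (N (r v))
      map_add' := fun v w => by simp [fromBlocks_add]
      map_smul' := fun c v => by simp [fromBlocks_smul] }
  refine ⟨κ ⊕ μ, κ' ⊕ μ', inferInstance, inferInstance, π.comp l + ρ.comp r, B,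
    fun v => IsSymm.fromBlocks (hM _) (by simp) (hN _), ?_⟩
  ext x
  simp only [Set.mem_ofPred_eq, Set.mem_image, B, LinearMap.coe_mk, AddHom.coe_mk,
    posSemidef_fromBlocks_iff]
  constructor
  · rintro ⟨_, ⟨v, hv, rfl⟩, _, ⟨w, hw, rfl⟩, rfl⟩
    refine ⟨Sum.elim v w, ⟨?_, ?_⟩, ?_⟩
    · simpa [hl, LinearMap.funLeft] using hv
    · simpa [hr, LinearMap.funLeft] using hw
    · simp [hl, hr, LinearMap.funLeft]
  · rintro ⟨v, ⟨hv, hw⟩, rfl⟩
    exact ⟨_, ⟨l v, hv, rfl⟩, _, ⟨r v, hw, rfl⟩, rfl⟩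

theorem isShadow_of_lift {S : Set (ι → ℝ)} (hS : IsLift S) : IsShadow S := by
  classical
  obtain ⟨κ, κ', i1, i2, π, M, hM, rfl⟩ := hS
  let L : (ι → ℝ) × (κ' → ℝ) →ₗ[ℝ] Matrix (κ ⊕ (ι ⊕ ι)) (κ ⊕ (ι ⊕ ι)) ℝ :=
    { toFun := fun z => fromBlocks (M z.2) 0 0
        (diagonal (Sum.elim (z.1 - π z.2) (π z.2 - z.1)))
      map_add' := fun z w => by
        rw [fromBlocks_add, diagonal_add]
        congr 1
        · simp
        · simp
        · simp
        · congr 1
          funext i
          rcases i with i | i <;> simp <;> ring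
      map_smul' := fun c z => by
        rw [RingHom.id_apply, fromBlocks_smul, ← diagonal_smul]
        congr 1
        · simp
        · simp
        · simp
        · congr 1
          funext i
          rcases i with i | i <;> simp <;> ring }
  have h := isShadow_of_linear (0 : Matrix (κ ⊕ (ι ⊕ ι)) (κ ⊕ (ι ⊕ ι)) ℝ) L isSymm_zero
    fun z => IsSymm.fromBlocks (hM _) (by simp) (isSymm_diagonal _)
  convert h using 1
  ext x
  simp only [Set.mem_ofPred_eq, Set.mem_image, zero_add, L, LinearMap.coe_mk, AddHom.coe_mk,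
    posSemidef_fromBlocks_iff, posSemidef_diagonal_iff]
  constructor
  · rintro ⟨v, hv, rfl⟩
    exact ⟨v, hv, fun i => by rcases i with i | i <;> simp⟩
  · rintro ⟨v, hv, hd⟩
    refine ⟨v, hv, funext fun i => ?_⟩
    have h1 := hd (Sum.inl i)
    have h2 := hd (Sum.inr i)
    simp only [Sum.elim_inl, Sum.elim_inr, Pi.sub_apply] at h1 h2
    linarith

omit [Fintype ι] in
theorem posSemidef_blockDiagonal {m o : Type} [Fintype m] [Fintype o] [DecidableEq o]
    (A : o → Matrix m m ℝ) : (blockDiagonal A).PosSemidef ↔ ∀ k, (A k).PosSemidef := by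
  constructor
  · intro h k
    have e : A k = (blockDiagonal A).submatrix (fun i => (i, k)) (fun i => (i, k)) := by
      ext i j
      simp [blockDiagonal_apply]
    rw [e]
    exact h.submatrix _
  · intro h
    refine PosSemidef.of_dotProduct_mulVec_nonneg ?_ fun z => ?_
    · show (blockDiagonal A)ᴴ = blockDiagonal A
      rw [blockDiagonal_conjTranspose]
      congr 1
      funext k
      exact (h k).1
    · have e : star z ⬝ᵥ blockDiagonal A *ᵥ z =
          ∑ k, (fun i => z (i, k)) ⬝ᵥ A k *ᵥ fun j => z (j, k) := by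
        simp only [star_trivial, dotProduct, mulVec, blockDiagonal_apply, Fintype.sum_prod_type,
          ite_mul, zero_mul]
        rw [Finset.sum_comm]
        simp
      rw [e]
      exact Finset.sum_nonneg fun k _ => by simpa using (h k).dotProduct_mulVec_nonneg fun i => z (i, k)

/-- The exponent belonging to an index. -/
noncomputable def expOf {κ : Type} [Finite κ] {N : ℕ} (α : κ → Fin (N + 1)) : κ →₀ ℕ :=
  Finsupp.equivFunOnFinite.symm fun k => (α k : ℕ)

omit [Fintype ι] in
theorem sum_expOf {κ : Type} [Fintype κ] [DecidableEq κ] {N : ℕ} {f : MvPolynomial κ ℝ} (hf : f.totalDegree ≤ N)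
    {A : Type} [AddCommMonoid A] (F : (κ →₀ ℕ) → ℝ → A) (hF : ∀ γ, F γ 0 = 0) :
    ∑ α : κ → Fin (N + 1), F (expOf α) (coeff (expOf α) f) =
      ∑ γ ∈ f.support, F γ (coeff γ f) := by
  classical
  have hinj : Function.Injective (expOf (κ := κ) (N := N)) := fun α β h => funext fun k =>
    Fin.ext (by simpa [expOf] using DFunLike.congr_fun h k)
  rw [← Finset.sum_image (f := fun γ => F γ (coeff γ f)) (fun a _ b _ h => hinj h)]
  refine (Finset.sum_subset (fun γ hγ => ?_) fun γ _ hγ => ?_).symm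
  · have hle : ∀ k, γ k < N + 1 := fun k => by
      have h1 := le_totalDegree hγ
      have h2 : γ k ≤ γ.sum fun _ e => e := by
        by_cases hk : k ∈ γ.support
        · exact Finset.single_le_sum (f := fun i => γ i) (fun _ _ => Nat.zero_le _) hk
        · rw [Finsupp.notMem_support_iff.1 hk]
          exact Nat.zero_le _
      omega
    exact Finset.mem_image.2 ⟨fun k => ⟨γ k, hle k⟩, Finset.mem_univ _, by ext k; simp [expOf]⟩
  · rw [notMem_support_iff.1 hγ, hF]

/-- The functional with prescribed moments. -/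
noncomputable def momFun {κ : Type} [Fintype κ] [DecidableEq κ] {N : ℕ} :
    ((κ → Fin (N + 1)) → ℝ) →ₗ[ℝ] MvPolynomial κ ℝ →ₗ[ℝ] ℝ :=
  ∑ α, (LinearMap.proj (φ := fun _ : κ → Fin (N + 1) => ℝ) α).smulRight (lcoeff ℝ (expOf α))

omit [Fintype ι] in
theorem momFun_apply {κ : Type} [Fintype κ] [DecidableEq κ] {N : ℕ} (v : (κ → Fin (N + 1)) → ℝ)
    (f : MvPolynomial κ ℝ) : momFun v f = ∑ α, v α * coeff (expOf α) f := by
  simp [momFun]

omit [Fintype ι] in
theorem momFun_point {κ : Type} [Fintype κ] [DecidableEq κ] {N : ℕ} (a : κ → ℝ) (t : ℝ) {f : MvPolynomial κ ℝ}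
    (hf : f.totalDegree ≤ N) :
    momFun (fun α : κ → Fin (N + 1) => t * ∏ k, a k ^ (α k : ℕ)) f = t * eval a f := by
  rw [momFun_apply, eval_eq', Finset.mul_sum]
  rw [← sum_expOf hf (fun γ r => t * (r * ∏ k, a k ^ γ k)) (fun γ => by simp)]
  exact Finset.sum_congr rfl fun α _ => by simp [expOf]; ring

/-- Moment lift of the conic hull of the image of a set cut out by finitely many inequalities. -/
theorem exists_moment_lift {κ : Type} [Fintype κ] [DecidableEq κ] (s : Finset (MvPolynomial κ ℝ))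
    (out : ι → MvPolynomial κ ℝ) (D : ℕ) :
    ∃ S : Set (ι → ℝ), IsLift S ∧
      (∀ y ∈ S, ∃ L : MvPolynomial κ ℝ →ₗ[ℝ] ℝ,
        (∀ g ∈ s, ∀ f : MvPolynomial κ ℝ, f.totalDegree ≤ D → 0 ≤ L (g * f ^ 2)) ∧
          y = fun i => L (out i)) ∧
      ∀ (a : κ → ℝ) (t : ℝ), 0 ≤ t → (∀ g ∈ s, 0 ≤ eval a g) →
        (fun i => t * eval a (out i)) ∈ S := by
  classical
  set K := Fintype.card κ * D with hK
  set N := s.sup totalDegree + Finset.univ.sup (fun i => (out i).totalDegree) + (K + K) with hN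
  set mon : (κ → Fin (D + 1)) → MvPolynomial κ ℝ := fun α => monomial (expOf α) 1 with hmon
  have hdeg : ∀ α, (mon α).totalDegree ≤ K := fun α => by
    rw [hmon, totalDegree_monomial _ one_ne_zero, Finsupp.sum_fintype _ _ (fun _ => rfl), hK]
    refine (Finset.sum_le_sum fun k _ => (?_ : expOf α k ≤ D)).trans (by simp)
    simp [expOf]
    omega
  let T : ((κ → Fin (N + 1)) → ℝ) →ₗ[ℝ]
      Matrix ((κ → Fin (D + 1)) × ↥s) ((κ → Fin (D + 1)) × ↥s) ℝ :=
    { toFun := fun v => blockDiagonal fun g : ↥s =>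
        Matrix.of fun α β => momFun v ((g : MvPolynomial κ ℝ) * (mon α * mon β))
      map_add' := fun v w => by
        rw [← blockDiagonal_add]
        congr 1
        funext g
        ext α β
        simp
      map_smul' := fun r v => by
        rw [RingHom.id_apply, ← blockDiagonal_smul]
        congr 1
        funext g
        ext α β
        simp }
  refine ⟨(LinearMap.pi fun i => LinearMap.applyₗ (out i) ∘ₗ momFun) '' {v | (T v).PosSemidef},
    ⟨_, _, inferInstance, inferInstance, _, T, fun v => ?_, rfl⟩, ?_, ?_⟩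
  · refine Matrix.IsSymm.ext fun x y => ?_
    simp only [T, LinearMap.coe_mk, AddHom.coe_mk, blockDiagonal_apply, of_apply]
    rcases eq_or_ne x.2 y.2 with h | h
    · rw [if_pos h, if_pos h.symm, h, mul_comm (mon y.1)]
    · rw [if_neg h, if_neg (Ne.symm h)]
  · rintro y ⟨v, hv, rfl⟩
    refine ⟨momFun v, fun g hg f hf => ?_, funext fun i => rfl⟩
    simp only [T, Set.mem_ofPred_eq, LinearMap.coe_mk, AddHom.coe_mk, posSemidef_blockDiagonal]
      at hv
    have hM := (hv ⟨g, hg⟩).dotProduct_mulVec_nonneg fun α => coeff (expOf α) f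
    have hrep : f = ∑ α : κ → Fin (D + 1), C (coeff (expOf α) f) * mon α := by
      conv_lhs => rw [f.as_sum]
      rw [← sum_expOf hf (fun γ r => monomial γ r) (fun γ => by simp)]
      exact Finset.sum_congr rfl fun α _ => by rw [hmon, C_mul_monomial, mul_one]
    have e : g * f ^ 2 = ∑ α : κ → Fin (D + 1), ∑ β : κ → Fin (D + 1),
        C (coeff (expOf α) f * coeff (expOf β) f) * (g * (mon α * mon β)) := by
      conv_lhs => rw [hrep]
      rw [sq, Finset.sum_mul_sum]
      simp only [Finset.mul_sum, map_mul]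
      exact Finset.sum_congr rfl fun α _ => Finset.sum_congr rfl fun β _ => by ring
    rw [e]
    simp only [map_sum, C_mul', map_smul, smul_eq_mul]
    refine le_of_le_of_eq hM ?_
    simp only [star_trivial, dotProduct, mulVec, of_apply, Finset.mul_sum]
    exact Finset.sum_congr rfl fun α _ => Finset.sum_congr rfl fun β _ => by ring
  · intro a t ht hpos
    refine ⟨fun α => t * ∏ k, a k ^ (α k : ℕ), ?_, funext fun i => ?_⟩
    · simp only [T, Set.mem_ofPred_eq, LinearMap.coe_mk, AddHom.coe_mk, posSemidef_blockDiagonal]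
      intro g
      have h := (posSemidef_vecMulVec_self_star (fun α => eval a (mon α))).smul
        (mul_nonneg ht (hpos _ g.2))
      convert h using 1
      ext α β
      have hd : ((g : MvPolynomial κ ℝ) * (mon α * mon β)).totalDegree ≤ N := by
        refine (totalDegree_mul _ _).trans ?_
        have h1 : (mon α * mon β).totalDegree ≤ K + K :=
          (totalDegree_mul _ _).trans (add_le_add (hdeg α) (hdeg β))
        have h2 : (g : MvPolynomial κ ℝ).totalDegree ≤ s.sup totalDegree := Finset.le_sup g.2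
        omega
      simp only [of_apply, momFun_point a t hd, map_mul, Matrix.smul_apply, vecMulVec_apply,
        star_trivial, smul_eq_mul]
      ring
    · show momFun _ (out i) = _
      refine momFun_point a t ?_
      have h2 : (out i).totalDegree ≤ Finset.univ.sup fun i => (out i).totalDegree :=
        Finset.le_sup (f := fun i => (out i).totalDegree) (Finset.mem_univ i)
      omega

end Vale.Agent.P256
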