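import Vale.Agent.P256.Corner.Expand

/-!
# P256: localisations of hyperbolic polynomials are hyperbolic
-/

namespace Vale.Agent.P256

open MvPolynomial Filter Topology

variable {ι : Type} [Fintype ι] {d k : ℕ} {p : MvPolynomial ι ℝ} {c e : ι → ℝ}

theorem exists_int_ne (hE : IsHyperbolic d p e) {F : MvPolynomial ι ℝ} (hF : F ≠ 0) :
    ∃ v, IsInt p e v ∧ eval v F ≠ 0 := by
  obtain ⟨w, hw⟩ : ∃ w, eval w F ≠ 0 := by
    by_contra hcon
    simp only [not_exists, not_not] at hcon
    exact hF (MvPolynomial.funext fun v => by rw [hcon v, map_zero])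
  have hL : lineP e (w - e) F ≠ 0 := fun h => hw (by
    have h1 := lineP_eval F e (w - e) 1
    rw [h, Polynomial.eval_zero, one_smul, add_sub_cancel] at h1
    exact h1.symm)
  have hev : ∀ᶠ r in 𝓝 (0 : ℝ), IsInt p e (e + r • (w - e)) := by
    have hc : Continuous fun r : ℝ => e + r • (w - e) := by fun_prop
    refine (hc.continuousAt (x := 0)).tendsto.eventually ?_
    simpa using int_open hE (int_e hE)
  obtain ⟨δ, hδ, hball⟩ := Metric.eventually_nhds_iff.1 hev
  obtain ⟨r, hr, hroot⟩ : ∃ r ∈ Set.Ioo (0 : ℝ) δ, r ∉ (lineP e (w - e) F).roots.toFinset :=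
    ((Set.Ioo_infinite hδ).sdiff (Finset.finite_toSet _)).nonempty.imp fun r hr => hr
  refine ⟨_, hball (y := r) ?_, fun h => hroot ?_⟩
  · rw [dist_zero_right, Real.norm_eq_abs, abs_of_pos hr.1]
    exact hr.2
  · rw [Multiset.mem_toFinset, Polynomial.mem_roots hL]
    exact (lineP_eval F e (w - e) r).trans h

/-- The localisation is positive at `e`. -/
theorem loc_pos (hE : IsHyperbolic d p e) (hc : c ∈ hypCone p e) (hk : IsMult p c k) :
    0 < eval e (tayl p c k) := by
  obtain ⟨v, hv, hgv⟩ := exists_int_ne hE hk.2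
  obtain ⟨η, hη, hdiff⟩ : ∃ η : ℝ, 0 < η ∧ IsInt p e (e - η • v) := by
    have hc' : Continuous fun t : ℝ => e - t • v := by fun_prop
    have hev : ∀ᶠ t in 𝓝 (0 : ℝ), IsInt p e (e - t • v) := by
      refine (hc'.continuousAt (x := 0)).tendsto.eventually ?_
      simpa using int_open hE (int_e hE)
    obtain ⟨δ, hδ, hball⟩ := Metric.eventually_nhds_iff.1 hev
    exact ⟨δ / 2, by linarith,
      hball (by rw [dist_zero_right, Real.norm_eq_abs, abs_of_pos (by linarith)]; linarith)⟩
  have key : ∀ r : ℝ, 0 < r → |locS p c k r (η • v)| ≤ 2 ^ d * locS p c k r e := by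
    intro r hr
    have hy : c + r • η • v ∈ hypCone p e :=
      (int_add hE hc (int_smul hE (int_smul hE hv hη) hr)).1
    have hb := mono_bound hE hy (int_smul hE hdiff hr)
    have e1 : c + r • η • v + r • (e - η • v) = c + r • e := by module
    rw [e1, abs_of_pos (int_pos hE (int_add_e hE hc hr)), expandR hk, expandR hk, abs_mul,
      abs_of_pos (pow_pos hr k)] at hb
    nlinarith [pow_pos hr k]
  have hlim : |locS p c k 0 (η • v)| ≤ 2 ^ d * locS p c k 0 e := by
    refine le_of_tendsto_of_tendsto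
      (f := fun r : ℝ => |locS p c k r (η • v)|) (g := fun r : ℝ => 2 ^ d * locS p c k r e)
      (b := 𝓝[>] (0 : ℝ)) ?_ ?_ (eventually_nhdsWithin_of_forall key)
    · exact ((locS_continuous continuous_id continuous_const).abs.tendsto 0).mono_left
        nhdsWithin_le_nhds
    · exact ((continuous_const.mul (locS_continuous continuous_id continuous_const)).tendsto
        0).mono_left nhdsWithin_le_nhds
  rw [locS_zero, locS_zero, aeval_eq_eval, aeval_eq_eval, eval_smul' _ (tayl_homogeneous p c k)]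
    at hlim
  have hne : 0 < |η ^ k * eval v (tayl p c k)| :=
    abs_pos.2 (mul_ne_zero (pow_ne_zero k hη.ne') hgv)
  by_contra hcon
  rw [not_lt] at hcon
  nlinarith [pow_pos (zero_lt_two (α := ℝ)) d]

/-- On real-rooted restrictions, one value bounds all others. -/
theorem dir_bound (hE : IsHyperbolic d p e) (y : ι → ℝ) {v : ι → ℝ} (hv : IsInt p e v) {z z' : ℂ}
    (hz : z.im ≠ 0) :
    ‖aeval (fun i => (y i : ℂ) + z' * (v i : ℂ)) p‖ ≤
      (1 + ‖z' - z‖ / |z.im|) ^ d * ‖aeval (fun i => (y i : ℂ) + z * (v i : ℂ)) p‖ := by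
  have hroots : ∀ r : ℂ, (linePoly p (fun i => (v i : ℂ)) fun i => (y i : ℂ)).eval r = 0 →
      |z.im| ≤ ‖z - r‖ := by
    intro r hr
    rw [linePoly_eval] at hr
    have him : r.im = 0 := not_not.1 fun h => dir_real hE y hv h (by
      rw [← hr]
      congr 2
      funext i
      simp [add_comm])
    refine le_trans ?_ (Complex.abs_im_le_norm _)
    simp [him]
  have hb := root_bound (z' := z') (linePoly_degree p hE.1 _ _).1 (abs_pos.2 hz) hroots
  rw [linePoly_eval, linePoly_eval] at hb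
  simpa [Pi.add_def, Pi.smul_def, add_comm] using hb

theorem loc_hyperbolic (hE : IsHyperbolic d p e) (hc : c ∈ hypCone p e) (hk : IsMult p c k) :
    IsHyperbolic k (tayl p c k) e := by
  refine ⟨tayl_homogeneous p c k, loc_pos hE hc hk, fun x z hzero => ?_⟩
  by_contra hz
  set W : ℂ → ι → ℂ := fun w i => w * (e i : ℂ) - (x i : ℂ) with hW
  have key : ∀ (t σ : ℝ), 0 < σ → ‖locS p c k (σ : ℂ) (W t)‖ ≤
      (1 + ‖(t : ℂ) - z‖ / |z.im|) ^ d * ‖locS p c k (σ : ℂ) (W z)‖ := by
    intro t σ hσ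
    have hb := dir_bound hE (c - σ • x) (int_smul hE (int_e hE) hσ) (z' := (t : ℂ)) hz
    have e1 : ∀ w : ℂ, (fun i => (((c - σ • x) i : ℝ) : ℂ) + w * (((σ • e) i : ℝ) : ℂ)) =
        fun i => (σ : ℂ) * W w i + (c i : ℂ) := by
      intro w
      funext i
      simp [hW]
      ring
    rw [e1, e1, expandC hk, expandC hk, norm_mul, norm_mul, ← mul_assoc,
      mul_comm _ ‖(σ : ℂ) ^ k‖, mul_assoc] at hb
    exact le_of_mul_le_mul_left hb (norm_pos_iff.2 (pow_ne_zero k (by exact_mod_cast hσ.ne')))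
  have hlim : ∀ t : ℝ, eval (t • e - x) (tayl p c k) = 0 := by
    intro t
    have hcont : ∀ w, Continuous fun σ : ℝ => ‖locS p c k (σ : ℂ) (W w)‖ := fun w =>
      (locS_continuousC Complex.continuous_ofReal continuous_const).norm
    have h := le_of_tendsto_of_tendsto (b := 𝓝[>] (0 : ℝ))
      (((hcont t).tendsto 0).mono_left nhdsWithin_le_nhds)
      (((continuous_const.mul (hcont z)).tendsto 0).mono_left nhdsWithin_le_nhds)
      (eventually_nhdsWithin_of_forall (key t))
    simp only [Pi.mul_apply, Complex.ofReal_zero, locS_zero, hW] at h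
    rw [hzero, norm_zero, mul_zero, norm_le_zero_iff] at h
    have e2 : (fun i => (t : ℂ) * (e i : ℂ) - (x i : ℂ)) = fun i => (((t • e - x) i : ℝ) : ℂ) := by
      funext i; simp
    rw [e2, aeval_real] at h
    exact_mod_cast h
  have hcont : Continuous fun r : ℝ => eval (e - r • x) (tayl p c k) :=
    (MvPolynomial.continuous_eval _).comp (by fun_prop)
  have h0 : eval (e - (0 : ℝ) • x) (tayl p c k) = 0 := by
    refine tendsto_nhds_unique ((hcont.tendsto 0).mono_left (nhdsWithin_le_nhds (s := Set.Ioi 0)))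
      (tendsto_const_nhds.congr' (eventually_nhdsWithin_of_forall fun r (hr : (0:ℝ) < r) => ?_))
    have e3 : e - r • x = r • (r⁻¹ • e - x) := by
      rw [smul_sub, smul_smul, mul_inv_cancel₀ hr.ne', one_smul]
    show (0 : ℝ) = eval (e - r • x) (tayl p c k)
    rw [e3, eval_smul' _ (tayl_homogeneous p c k), hlim, mul_zero]
  simp at h0
  exact (loc_pos hE hc hk).ne' h0

/-- Directions into the cone from `c` lie in the cone of the localisation, locally uniformly. -/
theorem tangent (hE : IsHyperbolic d p e) (hc : c ∈ hypCone p e) (hk : IsMult p c k) {u : ι → ℝ}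
    (hu : u ∉ hypCone (tayl p c k) e) :
    ∀ᶠ z : ℝ × (ι → ℝ) in 𝓝 (0, u), 0 < z.1 → c + z.1 • z.2 ∉ hypCone p e := by
  have hG := loc_hyperbolic hE hc hk
  simp only [mem_iff hG, not_forall, not_not] at hu
  obtain ⟨τ, hτ, h0⟩ := hu
  obtain ⟨δ, hδ, hfar⟩ := near_ray hG
  set T : ℝ := (‖u‖ + 1) / δ + 1 with hT
  have hT0 : eval (u + T • e) (tayl p c k) ≠ 0 := by
    rw [add_comm]
    refine hfar T u (by positivity) ?_
    rw [hT, mul_add, mul_div_cancel₀ _ hδ.ne']
    linarith
  set C : ℝ := (1 + ‖(T : ℂ) - τ‖ / τ) ^ d with hC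
  have hcont : ∀ t : ℝ, Continuous fun z : ℝ × (ι → ℝ) => |locS p c k z.1 (z.2 + t • e)| :=
    fun t => (locS_continuous continuous_fst (by fun_prop)).abs
  have hlt : C * |locS p c k (0 : ℝ) (u + τ • e)| < |locS p c k (0 : ℝ) (u + T • e)| := by
    rw [locS_zero, locS_zero, aeval_eq_eval, aeval_eq_eval, h0, abs_zero, mul_zero]
    exact abs_pos.2 hT0
  have hev : ∀ᶠ z : ℝ × (ι → ℝ) in 𝓝 (0, u),
      C * |locS p c k z.1 (z.2 + τ • e)| < |locS p c k z.1 (z.2 + T • e)| :=
    (continuous_const.mul (hcont τ)).continuousAt.eventually_lt (hcont T).continuousAt hlt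
  filter_upwards [hev] with z hz hz1 hmem
  have hroots : ∀ r : ℂ, (linePoly p (fun i => (((z.1 • e) i : ℝ) : ℂ))
      fun i => (((c + z.1 • z.2) i : ℝ) : ℂ)).eval r = 0 → τ ≤ ‖(τ : ℂ) - r‖ := by
    intro r hr
    rw [linePoly_eval] at hr
    have him : r.im = 0 := not_not.1 fun h =>
      dir_real hE (c + z.1 • z.2) (int_smul hE (int_e hE) hz1) h (by
        rw [← hr]
        congr 2
        funext i
        simp [add_comm])
    have hre : r.re ≤ 0 := by
      refine not_lt.1 fun hpos => (mem_iff hE _).1 hmem (r.re * z.1) (mul_pos hpos hz1) ?_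
      have : aeval (fun i => (((c + z.1 • z.2 + (r.re * z.1) • e) i : ℝ) : ℂ)) p = 0 := by
        rw [← hr]
        congr 2
        funext i
        have hrr : (r.re : ℂ) = r := Complex.ext rfl (by simp [him])
        simp [hrr]
        ring
      rw [aeval_real] at this
      exact_mod_cast this
    refine le_trans ?_ (Complex.re_le_norm _)
    simp
    linarith
  have hb := root_bound (z' := (T : ℂ)) (linePoly_degree p hE.1 _ _).1 hτ hroots
  have e1 : ∀ t : ℝ, ((t : ℂ) • (fun i => (((z.1 • e) i : ℝ) : ℂ)) +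
      fun i => (((c + z.1 • z.2) i : ℝ) : ℂ)) =
      fun i => (((c + z.1 • (z.2 + t • e)) i : ℝ) : ℂ) := by
    intro t
    funext i
    simp
    ring
  rw [linePoly_eval, linePoly_eval, e1, e1, aeval_real, aeval_real, expandR hk, expandR hk,
    Complex.norm_real, Complex.norm_real, Real.norm_eq_abs, Real.norm_eq_abs, abs_mul, abs_mul,
    abs_of_pos (pow_pos hz1 k), ← hC] at hb
  have hb' : z.1 ^ k * |locS p c k z.1 (z.2 + T • e)| ≤
      z.1 ^ k * (C * |locS p c k z.1 (z.2 + τ • e)|) := hb.trans (le_of_eq (by ring))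
  linarith [le_of_mul_le_mul_left hb' (pow_pos hz1 k)]

end Vale.Agent.P256
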