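import Vale.Agent.P256.Corner.Localize

/-!
# P256: membership near zeros with simple roots, lineality, lines of smooth zeros
-/

namespace Vale.Agent.P256

open MvPolynomial Filter Topology

variable {ι : Type} [Fintype ι] {d k : ℕ} {p : MvPolynomial ι ℝ} {c e : ι → ℝ}

/-- Near a direction with a simple root, nonnegativity of the expansion gives membership. -/
theorem member_near (hE : IsHyperbolic d p e) (hc : c ∈ hypCone p e) (hk : IsMult p c k)
    {u₀ : ι → ℝ} (hu : u₀ ∈ hypCone (tayl p c k) e)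
    (hb : 0 < (lineP u₀ e (tayl p c k)).coeff 1) :
    ∀ᶠ z : ℝ × (ι → ℝ) in 𝓝 (0, u₀), 0 < z.1 → 0 ≤ locS p c k z.1 z.2 →
      c + z.1 • z.2 ∈ hypCone p e := by
  choose R hRc hR hR0 using fun i => exists_divdiff (tayl p c (k + i)) e
  set S : ℝ × (ι → ℝ) × ℝ → ℝ := fun z =>
    ∑ i ∈ Finset.range (expLen p c), z.1 ^ i * R i (z.2.1, z.2.2) with hS
  have hSc : Continuous S := by
    rw [hS]
    exact continuous_finsetSum _ fun i _ =>
      (continuous_fst.pow i).mul ((hRc i).comp continuous_snd)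
  have hSd : ∀ (σ : ℝ) (u : ι → ℝ) (τ : ℝ),
      locS p c k σ (u + τ • e) = locS p c k σ u + τ * S (σ, u, τ) := by
    intro σ u τ
    simp only [locS, hS, aeval_eq_eval, Finset.mul_sum, ← Finset.sum_add_distrib]
    exact Finset.sum_congr rfl fun i _ => by rw [hR]; ring
  have hS0 : 0 < S (0, u₀, 0) := by
    rw [hS]
    simp only
    rw [expLen, Finset.sum_range_succ']
    simp only [zero_pow (Nat.succ_ne_zero _), zero_mul, Finset.sum_const_zero, zero_add, pow_zero,
      one_mul, add_zero, hR0]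
    exact hb
  obtain ⟨δ₁, hδ₁, hball⟩ := Metric.eventually_nhds_iff.1
    (hSc.continuousAt.eventually (lt_mem_nhds hS0))
  obtain ⟨δ₂, hδ₂, hint⟩ := Metric.eventually_nhds_iff.1 (int_open hE (int_e hE))
  set B : ℝ := (‖u₀‖ + 1) / δ₂ + δ₁ with hB
  have hG := loc_hyperbolic hE hc hk
  have hev : ∀ᶠ z : ℝ × (ι → ℝ) in 𝓝 (0, u₀),
      ∀ τ ∈ Set.Icc (δ₁ / 2) B, locS p c k z.1 (z.2 + τ • e) ≠ 0 := by
    refine isCompact_Icc.eventually_forall_of_forall_eventually fun τ hτ => ?_
    have hcont : Continuous fun z : (ℝ × (ι → ℝ)) × ℝ =>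
        locS p c k z.1.1 (z.1.2 + z.2 • e) :=
      locS_continuous (by fun_prop) (by fun_prop)
    refine (hcont.continuousAt (x := ((0, u₀), τ))).tendsto.eventually
      (isOpen_ne.mem_nhds ?_ : ∀ᶠ r in 𝓝 _, r ≠ (0 : ℝ))
    show locS p c k (0 : ℝ) (u₀ + τ • e) ≠ 0
    rw [locS_zero, aeval_eq_eval]
    exact (mem_iff hG u₀).1 hu τ (by linarith [hτ.1])
  have hclose : ∀ᶠ z : ℝ × (ι → ℝ) in 𝓝 (0, u₀),
      |z.1| < δ₁ / 2 ∧ ‖z.2 - u₀‖ < min (δ₁ / 2) 1 := by
    refine Filter.Eventually.and ?_ ?_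
    · refine ((continuous_abs.comp continuous_fst).continuousAt.eventually_lt continuousAt_const ?_)
      simpa using (by linarith : (0 : ℝ) < δ₁ / 2)
    · refine ((continuous_norm.comp (continuous_snd.sub continuous_const)).continuousAt.eventually_lt
        continuousAt_const ?_)
      simpa using hδ₁
  filter_upwards [hev, hclose] with z hz hzc hz1 hnn
  refine (mem_iff hE _).2 fun τ' hτ' => ?_
  set τ : ℝ := τ' / z.1 with hτdef
  have hτ : 0 < τ := div_pos hτ' hz1
  have e1 : c + z.1 • z.2 + τ' • e = c + z.1 • (z.2 + τ • e) := by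
    rw [smul_add, smul_smul, hτdef, mul_div_cancel₀ _ hz1.ne', add_assoc]
  rw [e1]
  rcases le_or_gt τ B with hτB | hτB
  · rw [expandR hk]
    refine mul_ne_zero (pow_ne_zero k hz1.ne') ?_
    rcases lt_or_ge τ (δ₁ / 2) with h1 | h1
    · rw [hSd]
      have hd : dist (z.1, z.2, τ) ((0 : ℝ), u₀, (0 : ℝ)) < δ₁ := by
        rw [Prod.dist_eq, Prod.dist_eq]
        simp only [dist_eq_norm, sub_zero, Real.norm_eq_abs, max_lt_iff]
        refine ⟨by linarith [hzc.1], by linarith [hzc.2, min_le_left (δ₁ / 2) 1], ?_⟩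
        rw [abs_of_pos hτ]
        linarith
      exact (add_pos_of_nonneg_of_pos hnn (mul_pos hτ (hball hd))).ne'
    · exact hz τ ⟨h1, hτB⟩
  · have hτ0 : τ ≠ 0 := hτ.ne'
    have hnear : IsInt p e (e + τ⁻¹ • z.2) := by
      refine hint ?_
      rw [dist_eq_norm, add_sub_cancel_left, norm_smul, norm_inv, Real.norm_of_nonneg hτ.le,
        inv_mul_lt_iff₀ hτ]
      have h2 : ‖z.2‖ < ‖u₀‖ + 1 := by
        have := norm_le_norm_add_norm_sub' z.2 u₀
        linarith [hzc.2, min_le_right (δ₁ / 2) 1]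
      have h3 : (‖u₀‖ + 1) / δ₂ < τ := by linarith
      rw [div_lt_iff₀ hδ₂] at h3
      linarith
    have e2 : z.1 • (z.2 + τ • e) = (z.1 * τ) • (e + τ⁻¹ • z.2) := by
      rw [smul_add, smul_add, smul_smul, smul_smul, mul_assoc, mul_inv_cancel₀ hτ0, mul_one,
        add_comm]
    rw [e2]
    exact eval_add_int_ne hE hc (int_smul hE hnear (mul_pos hz1 hτ))

omit [Fintype ι] in
theorem tayl_origin {F : MvPolynomial ι ℝ} {m : ℕ} (hF : F.IsHomogeneous m) : tayl F 0 m = F := by
  have h : shiftPoly F 0 = F := by simp [shiftPoly]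
  rw [tayl_def, h, homogeneousComponent_eq_self hF]

omit [Fintype ι] in
theorem mult_one {x : ι → ℝ} (h0 : eval x p = 0) (hsm : ¬IsSingularPt p x) : IsMult p x 1 :=
  ⟨fun m hm => by
    rw [show m = 0 by omega]
    exact MvPolynomial.funext fun v => by rw [eval_tayl_zero, h0, map_zero],
    fun h => hsm ((isSingularPt_iff p x).2 ⟨h0, h⟩)⟩

/-- Near a smooth zero in the cone, `0 ≤ p` gives membership. -/
theorem smooth_near (hE : IsHyperbolic d p e) {x : ι → ℝ} (hx : x ∈ hypCone p e)
    (h0 : eval x p = 0) (hsm : ¬IsSingularPt p x) :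
    ∀ᶠ y in 𝓝 x, 0 ≤ eval y p → y ∈ hypCone p e := by
  have hk := mult_one h0 hsm
  have hb : 0 < (lineP (0 : ι → ℝ) e (tayl p x 1)).coeff 1 := by
    rw [lineP_coeff, tayl_origin (tayl_homogeneous p x 1)]
    exact loc_pos hE hx hk
  obtain ⟨δ, hδ, hball⟩ := Metric.eventually_nhds_iff.1
    (member_near hE hx hk (zero_mem (loc_hyperbolic hE hx hk)) hb)
  have hσ : (0 : ℝ) < δ / 2 := by linarith
  refine Metric.eventually_nhds_iff.2 ⟨δ / 2 * δ, by positivity, fun {y} hy hnn => ?_⟩
  have e1 : x + (δ / 2) • ((δ / 2)⁻¹ • (y - x)) = y := by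
    rw [smul_smul, mul_inv_cancel₀ hσ.ne', one_smul, add_sub_cancel]
  have h := @hball ((δ / 2), (δ / 2)⁻¹ • (y - x)) ?_ hσ ?_
  · rwa [e1] at h
  · simp only [Prod.dist_eq, dist_zero_right, max_lt_iff, Real.norm_eq_abs, abs_of_pos hσ]
    refine ⟨by linarith, ?_⟩
    rw [norm_smul, norm_inv, Real.norm_of_nonneg hσ.le, inv_mul_lt_iff₀ hσ, ← dist_eq_norm]
    exact hy
  · have h1 := expandR hk (δ / 2) ((δ / 2)⁻¹ • (y - x))
    rw [e1, pow_one] at h1
    rw [h1] at hnn
    exact nonneg_of_mul_nonneg_right hnn hσ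

theorem lineality (hE : IsHyperbolic d p e) {z : ι → ℝ} (hz : z ∈ hypCone p e)
    (hz' : -z ∈ hypCone p e) (v : ι → ℝ) : eval (v + z) p = eval v p := by
  have hint : ∀ w, IsInt p e w → eval (w + z) p = eval w p := by
    intro w hw
    set g := linePoly p (fun i => (z i : ℂ)) fun i => (w i : ℂ) with hg
    have hno : ∀ r : ℂ, g.eval r ≠ 0 := by
      intro r
      have hre : IsInt p e (w + r.re • z) := by
        rcases le_total 0 r.re with h | h
        · rw [add_comm]
          exact int_add hE (smul_mem hE hz h) hw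
        · rw [add_comm, show r.re • z = (-r.re) • -z by simp]
          exact int_add hE (smul_mem hE hz' (neg_nonneg.2 h)) hw
      rw [hg, linePoly_eval]
      by_cases him : r.im = 0
      · have e1 : (r • (fun i => (z i : ℂ)) + fun i => (w i : ℂ)) =
            fun i => (((w + r.re • z) i : ℝ) : ℂ) := by
          funext i
          have : (r.re : ℂ) = r := Complex.ext rfl (by simp [him])
          simp [this, add_comm]
        rw [e1, aeval_real]
        exact_mod_cast hre.2
      · have e1 : (r • (fun i => (z i : ℂ)) + fun i => (w i : ℂ)) =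
            fun i => (((w + r.re • z) i : ℝ) : ℂ) + (Complex.I * (r.im : ℂ)) * (z i : ℂ) := by
          funext i
          simp only [Pi.add_apply, Pi.smul_apply, smul_eq_mul]
          conv_lhs => rw [← Complex.re_add_im r]
          push_cast
          ring
        rw [e1]
        exact base_real hE hre z (by simpa using him)
    have hdeg : g.degree = 0 := by
      by_contra h
      obtain ⟨r, hr⟩ := IsAlgClosed.exists_root g h
      exact hno r hr
    have h01 : g.eval 1 = g.eval 0 := by
      rw [Polynomial.eq_C_of_degree_eq_zero hdeg]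
      simp
    rw [hg, linePoly_eval, linePoly_eval, one_smul, zero_smul, zero_add] at h01
    have e2 : ((fun i => (z i : ℂ)) + fun i => (w i : ℂ)) = fun i => (((w + z) i : ℝ) : ℂ) := by
      funext i; simp [add_comm]
    rw [e2, aeval_real, aeval_real] at h01
    exact_mod_cast h01
  have hev : ∀ᶠ r in 𝓝 (0 : ℝ), IsInt p e (e + r • (v - e)) := by
    have hc' : Continuous fun r : ℝ => e + r • (v - e) := by fun_prop
    refine (hc'.continuousAt (x := 0)).tendsto.eventually ?_
    simpa using int_open hE (int_e hE)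
  obtain ⟨δ, hδ, hball⟩ := Metric.eventually_nhds_iff.1 hev
  have hzero : lineP (e + z) (v - e) p - lineP e (v - e) p = 0 := by
    refine Polynomial.eq_zero_of_infinite_isRoot _ ((Set.Ioo_infinite hδ).mono fun r hr => ?_)
    show Polynomial.eval r _ = 0
    rw [Polynomial.eval_sub, lineP_eval, lineP_eval, sub_eq_zero, add_right_comm]
    refine hint _ (hball ?_)
    rw [dist_zero_right, Real.norm_eq_abs, abs_of_pos hr.1]
    exact hr.2
  have h := congrArg (Polynomial.eval 1) hzero
  rw [Polynomial.eval_sub, lineP_eval, lineP_eval, Polynomial.eval_zero, sub_eq_zero, one_smul,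
    add_right_comm, add_sub_cancel] at h
  exact h

theorem singular_of_lineality (hE : IsHyperbolic d p e) (hd : 2 ≤ d) {z : ι → ℝ}
    (hz : z ∈ hypCone p e) (hz' : -z ∈ hypCone p e) : IsSingularPt p z := by
  have hl : ∀ v, lineP z v p = lineP (0 : ι → ℝ) v p := fun v => Polynomial.funext fun r => by
    rw [lineP_eval, lineP_eval, add_comm, lineality hE hz hz', zero_add]
  have h0 : shiftPoly p (0 : ι → ℝ) = p := by simp [shiftPoly]
  have hm : ∀ m, m < d → tayl p (0 : ι → ℝ) m = 0 := fun m hm => by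
    rw [tayl_def, h0, homogeneousComponent_of_mem hE.1, if_neg (by omega)]
  have key : ∀ m, m < d → tayl p z m = 0 := fun m h => MvPolynomial.funext fun v => by
    rw [← lineP_coeff, hl, lineP_coeff, hm m h]
  exact ⟨key 0 (by omega), key 1 (by omega)⟩

/-- A line of smooth zeros through a point of the cone stays in the cone. -/
theorem line_in_cone (hE : IsHyperbolic d p e) {x z : ι → ℝ} (hx : x ∈ hypCone p e)
    (hline : ∀ s : ℝ, eval (x + s • z) p = 0)
    (hsm : ∀ s : ℝ, x + s • z ∈ hypCone p e → ¬IsSingularPt p (x + s • z)) :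
    z ∈ hypCone p e ∧ -z ∈ hypCone p e := by
  set S : Set ℝ := {s | x + s • z ∈ hypCone p e} with hS
  have hc' : Continuous fun s : ℝ => x + s • z := by fun_prop
  have hopen : IsOpen S := by
    rw [isOpen_iff_mem_nhds]
    intro s hs
    filter_upwards [(hc'.continuousAt (x := s)).tendsto.eventually
      (smooth_near hE hs (hline s) (hsm s hs))] with t ht
    exact ht (hline t).ge
  have hclopen : IsClopen S := ⟨(cone_closed hE).preimage hc', hopen⟩
  have huniv : S = Set.univ := (isClopen_iff.1 hclopen).resolve_left fun h =>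
    Set.notMem_empty (0 : ℝ) (h ▸ (show (0 : ℝ) ∈ S by simpa [hS] using hx))
  have key : ∀ w, (∀ s : ℝ, 0 < s → x + s • w ∈ hypCone p e) → w ∈ hypCone p e := by
    intro w hw
    have hc2 : Continuous fun t : ℝ => t • x + w := by fun_prop
    have hmem : Set.Ioi (0 : ℝ) ⊆ (fun t : ℝ => t • x + w) ⁻¹' hypCone p e := by
      intro t (ht : 0 < t)
      have h := smul_mem hE (hw t⁻¹ (inv_pos.2 ht)) ht.le
      rwa [smul_add, smul_smul, mul_inv_cancel₀ ht.ne', one_smul] at h
    have h0 := ((cone_closed hE).preimage hc2).closure_subset_iff.2 hmem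
      (show (0 : ℝ) ∈ closure (Set.Ioi 0) by rw [closure_Ioi]; exact Set.self_mem_Ici)
    simpa using h0
  have hall : ∀ s : ℝ, x + s • z ∈ hypCone p e := fun s => huniv.ge (Set.mem_univ s)
  exact ⟨key z fun s _ => hall s, key (-z) fun s _ => by rw [smul_neg, ← neg_smul]; exact hall _⟩

end Vale.Agent.P256
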