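import Vale.Agent.P256.Corner.Jensen
import Vale.Agent.P256.Corner.Lift
import Vale.Agent.P256.Corner.Flat
import Vale.Agent.P256.Corner.Member

/-!
# P256: auxiliary facts for the local pieces
-/

namespace Vale.Agent.P256

open MvPolynomial Filter Topology

variable {ι : Type}

theorem linear_add {g : MvPolynomial ι ℝ} (hg : g.IsHomogeneous 1) (a b : ι → ℝ) :
    eval (a + b) g = eval a g + eval b g := by
  conv_lhs => rw [g.as_sum]
  conv_rhs => rw [g.as_sum]
  simp only [map_sum, ← Finset.sum_add_distrib]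
  refine Finset.sum_congr rfl fun γ hγ => ?_
  obtain ⟨i, rfl⟩ := (Finsupp.sum_eq_one_iff γ).1 (by
    have h := support_sum hg hγ
    exact h)
  simp only [eval_monomial, Finsupp.prod_single_index, pow_zero, pow_one, Pi.add_apply]
  ring

theorem coeff_two_sq {P : Polynomial ℝ} (h : P.coeff 0 = 0) :
    (P ^ 2).coeff 2 = P.coeff 1 ^ 2 := by
  rw [sq P, sq (P.coeff 1), Polynomial.coeff_mul, Finset.Nat.antidiagonal_succ, Finset.sum_cons]
  simp [h, Finset.Nat.antidiagonal_succ]

theorem coeff_one_sq {P : Polynomial ℝ} (h : P.coeff 0 = 0) : (P ^ 2).coeff 1 = 0 := by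
  rw [sq, Polynomial.coeff_mul, Finset.Nat.antidiagonal_succ, Finset.sum_cons]
  simp [h]

/-- A vanishing mass forces vanishing means. -/
theorem mean_zero {κ : Type} {L : MvPolynomial κ ℝ →ₗ[ℝ] ℝ} {ε : ℝ} {D : ℕ} (hL : BoxPos L ε D)
    (hD : 1 ≤ D) (h0 : L 1 = 0) (k : κ) : L (X k) = 0 := by
  have hA := (hL 1 (by simp)).2 k
  rw [one_pow, mul_one, map_sub, ← mul_one (C (ε ^ 2)), L_C_mul, h0, mul_zero, zero_sub] at hA
  have hB := (hL (X k) (by simpa [totalDegree_X] using hD)).1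
  have hsq : L (X k ^ 2) = 0 := le_antisymm (by linarith) hB
  have hC : ∀ t : ℝ, 0 ≤ 2 * t * L (X k) := by
    intro t
    have h := (hL (C 1 + C t * X k) ((totalDegree_add _ _).trans (max_le (by simp) (by
      refine (totalDegree_mul _ _).trans ?_
      simpa [totalDegree_X, totalDegree_C] using hD)))).1
    have e : (C 1 + C t * X k) ^ 2 = 1 + C (2 * t) * X k + C (t ^ 2) * X k ^ 2 := by
      simp only [map_one, map_mul, map_pow, map_ofNat]
      ring
    rw [e, map_add, map_add, h0, L_C_mul, L_C_mul, hsq, mul_zero, add_zero, zero_add] at h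
    exact h
  have h1 := hC 1
  have h2 := hC (-1)
  linarith

theorem boxPos_smul {κ : Type} {L : MvPolynomial κ ℝ →ₗ[ℝ] ℝ} {ε r : ℝ} {D : ℕ}
    (hL : BoxPos L ε D) (hr : 0 ≤ r) : BoxPos (r • L) ε D := fun f hf =>
  ⟨mul_nonneg hr (hL f hf).1, fun k => mul_nonneg hr ((hL f hf).2 k)⟩

/-- The linear form of the inner product with `a`, in the variables selected by `f`. -/
noncomputable def dotPoly {κ : Type} [Fintype ι] (f : ι → κ) (a : ι → ℝ) : MvPolynomial κ ℝ :=
  ∑ i, C (a i) * X (f i)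

theorem eval_dotPoly {κ : Type} [Fintype ι] (f : ι → κ) (a : ι → ℝ) (v : κ → ℝ) :
    eval v (dotPoly f a) = (fun i => v (f i)) ⬝ᵥ a := by
  simp [dotPoly, dotProduct, mul_comm]

theorem lineP_dotPoly {κ : Type} [Fintype ι] (f : ι → κ) (a : ι → ℝ) (v : κ → ℝ) :
    lineP (0 : κ → ℝ) v (dotPoly f a) =
      Polynomial.C ((fun i => v (f i)) ⬝ᵥ a) * Polynomial.X := by
  refine Polynomial.funext fun r => ?_
  rw [lineP_eval, eval_dotPoly, zero_add]
  simp only [dotProduct, Polynomial.eval_mul, Polynomial.eval_C, Polynomial.eval_X, Finset.sum_mul,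
    Pi.smul_apply, smul_eq_mul]
  exact Finset.sum_congr rfl fun i _ => by ring

theorem dot_self_pos [Fintype ι] {x : ι → ℝ} (hx : x ≠ 0) : 0 < x ⬝ᵥ x := by
  refine lt_of_le_of_ne (Finset.sum_nonneg fun i _ => mul_self_nonneg (x i)) fun h => hx ?_
  exact dotProduct_self_eq_zero.1 h.symm

theorem eval_tayl_smul (h : MvPolynomial ι ℝ) (a : ι → ℝ) (m : ℕ) (t : ℝ) (v : ι → ℝ) :
    eval (t • v) (tayl h a m) = t ^ m * eval v (tayl h a m) :=
  eval_smul' _ (tayl_homogeneous h a m) t v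

end Vale.Agent.P256
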