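import Vale.Agent.P256.Corner.Taylor

/-!
# P256: quadratic forms as sums of squares, and penalties
-/

namespace Vale.Agent.P256

open MvPolynomial Filter Topology
open scoped MatrixOrder

variable {ι : Type} [Fintype ι]

omit [Fintype ι] in
theorem exists_pair {γ : ι →₀ ℕ} (h : 2 ≤ γ.degree) :
    ∃ i j γ', γ = Finsupp.single i 1 + Finsupp.single j 1 + γ' ∧ γ'.degree + 2 = γ.degree := by
  classical
  have hone : ∀ η : ι →₀ ℕ, 1 ≤ η.degree →
      ∃ i η', η = Finsupp.single i 1 + η' ∧ η'.degree + 1 = η.degree := by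
    intro η hη
    obtain ⟨i, hi⟩ : ∃ i, η i ≠ 0 := by
      by_contra hcon
      simp only [not_exists, not_not] at hcon
      rw [show η = 0 from Finsupp.ext hcon, map_zero] at hη
      omega
    have e : η = Finsupp.single i 1 + (η - Finsupp.single i 1) :=
      (add_tsub_cancel_of_le (Finsupp.single_le_iff.2 (Nat.one_le_iff_ne_zero.2 hi))).symm
    refine ⟨i, _, e, ?_⟩
    have h' := congrArg Finsupp.degree e
    rw [map_add, Finsupp.degree_single] at h'
    omega
  obtain ⟨i, η, rfl, hη⟩ := hone γ (by omega)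
  obtain ⟨j, η', rfl, hη'⟩ := hone η (by omega)
  exact ⟨i, j, η', (add_assoc _ _ _).symm, by omega⟩

theorem exists_quad_matrix {F : MvPolynomial ι ℝ} (hF : F.IsHomogeneous 2) :
    ∃ B : Matrix ι ι ℝ, F = ∑ i, ∑ j, C (B i j) * (X i * X j) := by
  classical
  suffices h : ∀ s ⊆ F.support, ∃ B : Matrix ι ι ℝ,
      ∑ γ ∈ s, monomial γ (coeff γ F) = ∑ i, ∑ j, C (B i j) * (X i * X j) by
    obtain ⟨B, hB⟩ := h F.support subset_rfl
    exact ⟨B, F.as_sum.trans hB⟩
  intro s hs
  induction s using Finset.induction_on with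
  | empty => exact ⟨0, by simp⟩
  | @insert γ s hγs ih =>
    obtain ⟨B, hB⟩ := ih fun x hx => hs (Finset.mem_insert_of_mem hx)
    have hdeg : γ.degree = 2 := by
      by_contra hne
      exact mem_support_iff.1 (hs (Finset.mem_insert_self _ _)) (hF.coeff_eq_zero hne)
    obtain ⟨i, j, γ', hγ, hγ'⟩ := exists_pair hdeg.ge
    have h0 : γ' = 0 := (Finsupp.degree_eq_zero_iff _).1 (by omega)
    refine ⟨Matrix.single i j (coeff γ F) + B, ?_⟩
    rw [Finset.sum_insert hγs, hB]
    simp only [Matrix.add_apply, map_add, add_mul, Finset.sum_add_distrib]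
    congr 1
    rw [Finset.sum_eq_single i (fun a _ ha => Finset.sum_eq_zero fun b _ => by
        rw [Matrix.single_apply_of_row_ne (Ne.symm ha), map_zero, zero_mul])
      (fun h => absurd (Finset.mem_univ _) h)]
    rw [Finset.sum_eq_single j (fun b _ hb => by
        rw [Matrix.single_apply_of_col_ne _ _ (Ne.symm hb), map_zero, zero_mul])
      (fun h => absurd (Finset.mem_univ _) h)]
    rw [Matrix.single_apply_same, hγ, h0, add_zero, X, X, monomial_mul, C_mul_monomial]
    simp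

theorem exists_sq_sum {F : MvPolynomial ι ℝ} (hF : F.IsHomogeneous 2)
    (hnn : ∀ v, 0 ≤ eval v F) :
    ∃ R : Matrix ι ι ℝ, F = ∑ k, (∑ i, C (R k i) * X i) ^ 2 := by
  classical
  obtain ⟨B, hB⟩ := exists_quad_matrix hF
  set A : Matrix ι ι ℝ := (2 : ℝ)⁻¹ • (B + B.transpose) with hA
  have hev : ∀ (M : Matrix ι ι ℝ) (v : ι → ℝ),
      ∑ i, ∑ j, M i j * (v i * v j) = dotProduct v (M.mulVec v) := by
    intro M v
    simp only [dotProduct, Matrix.mulVec, Finset.mul_sum]
    exact Finset.sum_congr rfl fun i _ => Finset.sum_congr rfl fun j _ => by ring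
  have hFA : ∀ v, eval v F = dotProduct v (A.mulVec v) := by
    intro v
    rw [hA, Matrix.smul_mulVec, Matrix.add_mulVec, dotProduct_smul, dotProduct_add]
    have h1 : dotProduct v (B.transpose.mulVec v) = dotProduct v (B.mulVec v) := by
      rw [Matrix.mulVec_transpose, dotProduct_comm, Matrix.dotProduct_mulVec]
    rw [h1, ← hev, hB]
    simp only [map_sum, map_mul, eval_C, eval_X, smul_eq_mul]
    ring
  have hsym : A.IsHermitian := by
    rw [Matrix.isHermitian_iff_isSymm]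
    ext i j
    simp [hA, add_comm]
  have hpsd : A.PosSemidef := Matrix.PosSemidef.of_dotProduct_mulVec_nonneg hsym fun v => by
    rw [star_trivial, ← hFA]
    exact hnn v
  obtain ⟨R, hR⟩ := CStarAlgebra.nonneg_iff_eq_star_mul_self.mp hpsd.nonneg
  refine ⟨R, MvPolynomial.funext fun v => ?_⟩
  rw [hFA, hR, ← Matrix.mulVec_mulVec, Matrix.dotProduct_mulVec, Matrix.star_eq_conjTranspose,
    Matrix.vecMul_conjTranspose, star_trivial]
  simp [dotProduct, Matrix.mulVec, sq]

/-- A quadratic function positive where a nonnegative one vanishes becomes definite after adding a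
multiple of the latter. -/
theorem quad_penalty (q s : (ι → ℝ) → ℝ) (hqc : Continuous q) (hsc : Continuous s)
    (hq : ∀ (t : ℝ) v, q (t • v) = t ^ 2 * q v) (hs : ∀ (t : ℝ) v, s (t • v) = t ^ 2 * s v)
    (hsn : ∀ v, 0 ≤ s v) (hpos : ∀ v, v ≠ 0 → s v = 0 → 0 < q v) :
    ∃ M, 0 ≤ M ∧ ∃ c, 0 < c ∧ ∀ v, c * ∑ i, v i ^ 2 ≤ q v + M * s v := by
  have hK := isCompact_sphere (0 : ι → ℝ) 1
  set U : ℕ → Set (ι → ℝ) := fun n => {v | 0 < q v + (n : ℝ) * s v} with hU
  have hmono : Monotone U := fun m n hmn v hv => by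
    simp only [hU, Set.mem_ofPred_eq] at hv ⊢
    have := mul_le_mul_of_nonneg_right (Nat.cast_le (α := ℝ).2 hmn) (hsn v)
    linarith
  obtain ⟨n, hn⟩ := hK.elim_directed_cover U
    (fun n => isOpen_lt continuous_const (hqc.add (continuous_const.mul hsc)))
    (fun v hv => by
      rw [Set.mem_iUnion]
      have hv0 : v ≠ 0 := fun h => by simp [h] at hv
      rcases (hsn v).eq_or_lt with h | h
      · exact ⟨0, by simpa [hU] using hpos v hv0 h.symm⟩
      · obtain ⟨n, hn⟩ := exists_nat_gt (-q v / s v)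
        rw [div_lt_iff₀ h] at hn
        exact ⟨n, by simp only [hU, Set.mem_ofPred_eq]; linarith⟩)
    (directed_of_isDirected_le fun m n h => hmono h)
  refine ⟨n, n.cast_nonneg, ?_⟩
  obtain ⟨c, hc, hcb⟩ : ∃ c, 0 < c ∧ ∀ v ∈ Metric.sphere (0 : ι → ℝ) 1, c ≤ q v + n * s v := by
    rcases (Metric.sphere (0 : ι → ℝ) 1).eq_empty_or_nonempty with h | h
    · exact ⟨1, one_pos, by simp [h]⟩
    · obtain ⟨v, hv, hmin⟩ := hK.exists_isMinOn h
        (hqc.add (continuous_const.mul hsc)).continuousOn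
      exact ⟨q v + n * s v, hn hv, fun w hw => hmin hw⟩
  set N : ℝ := (Fintype.card ι : ℝ) + 1 with hN
  have hNpos : 0 < N := by positivity
  refine ⟨c / N, div_pos hc hNpos, fun v => ?_⟩
  by_cases hv : v = 0
  · subst hv
    have h1 := hq 0 0
    have h2 := hs 0 0
    rw [smul_zero, zero_pow two_ne_zero, zero_mul] at h1 h2
    simp [h1, h2]
  have hr : 0 < ‖v‖ := norm_pos_iff.2 hv
  have hmem : ‖v‖⁻¹ • v ∈ Metric.sphere (0 : ι → ℝ) 1 := by
    rw [mem_sphere_zero_iff_norm, norm_smul, norm_inv, norm_norm, inv_mul_cancel₀ hr.ne']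
  have h1 := hcb _ hmem
  rw [hq, hs] at h1
  have h2 : c * ‖v‖ ^ 2 ≤ q v + n * s v := by
    have h3 := mul_le_mul_of_nonneg_right h1 (sq_nonneg ‖v‖)
    refine h3.trans (le_of_eq ?_)
    field_simp
  have hsum : ∑ i, v i ^ 2 ≤ N * ‖v‖ ^ 2 := by
    have : ∀ i ∈ Finset.univ, v i ^ 2 ≤ ‖v‖ ^ 2 := fun i _ =>
      sq_le_sq.2 (by rw [abs_norm]; exact (Real.norm_eq_abs _).symm.trans_le (norm_le_pi_norm v i))
    have h4 := Finset.sum_le_sum this
    rw [Finset.sum_const, Finset.card_univ, nsmul_eq_mul] at h4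
    rw [hN]
    nlinarith [sq_nonneg ‖v‖]
  calc c / N * ∑ i, v i ^ 2 ≤ c / N * (N * ‖v‖ ^ 2) :=
        mul_le_mul_of_nonneg_left hsum (div_nonneg hc.le hNpos.le)
    _ = c * ‖v‖ ^ 2 := by field_simp
    _ ≤ _ := h2

end Vale.Agent.P256
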