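import Vale.Agent.P256.Corner.Pieces

/-!
# P256: the piece at a smooth boundary point
-/

namespace Vale.Agent.P256

open MvPolynomial Filter Topology

variable {ι : Type} [Fintype ι] {d : ℕ} {p : MvPolynomial ι ℝ} {e x : ι → ℝ}

theorem smooth_curvature (hE : IsHyperbolic d p e) (hI : IsolatedCorners p e)
    (hx : x ∈ hypCone p e) (hx0 : x ≠ 0) (h0 : eval x p = 0) (hsm : ¬IsSingularPt p x)
    {v : ι → ℝ} (hv : v ≠ 0) (hv1 : eval v (tayl p x 1) = 0) (hvx : v ⬝ᵥ x = 0) :
    eval v (tayl p x 2) < 0 := by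
  have hk := mult_one h0 hsm
  have hb : 0 < (lineP v e (tayl p x 1)).coeff 1 := by
    have he : lineP v e (tayl p x 1) = Polynomial.C (eval e (tayl p x 1)) * Polynomial.X := by
      refine Polynomial.funext fun r => ?_
      rw [lineP_eval, linear_add (tayl_homogeneous p x 1), hv1, zero_add, eval_tayl_smul]
      rw [Polynomial.eval_mul, Polynomial.eval_C, Polynomial.eval_X, pow_one, mul_comm]
    rw [he, Polynomial.coeff_C_mul_X]
    simpa using loc_pos hE hx hk
  refine (flat_sign hE hx hk le_rfl hv1 hb).resolve_left fun hline => hv ?_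
  have hsmline : ∀ s : ℝ, x + s • v ∈ hypCone p e → ¬IsSingularPt p (x + s • v) := by
    intro s hs hsing
    have hdot : (x + s • v) ⬝ᵥ x = x ⬝ᵥ x := by
      rw [add_dotProduct, smul_dotProduct, hvx, smul_zero, add_zero]
    have hne : x + s • v ≠ 0 := fun h => by
      rw [h, zero_dotProduct] at hdot
      exact (dot_self_pos hx0).ne hdot
    obtain ⟨r, hr⟩ := (hI.2 _ hs hne hsing).1 x hx fun t _ => by
      rw [show (1 - t) • (x + s • v) + t • x = x + ((1 - t) * s) • v by module]
      exact hline _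
    have h1 : x ⬝ᵥ x = r * (x ⬝ᵥ x) := by
      conv_lhs => arg 1; rw [hr]
      rw [smul_dotProduct, hdot, smul_eq_mul]
    have hr1 : r = 1 := by
      have := dot_self_pos hx0
      nlinarith
    rw [hr1, one_smul] at hr
    rw [← hr] at hsing
    exact hsm hsing
  obtain ⟨h1, h2⟩ := line_in_cone hE hx hline hsmline
  exact hI.1 v h1 h2

/-- A lift inside the cone that covers the boundary near a smooth point. -/
theorem smooth_piece (hE : IsHyperbolic d p e) (hI : IsolatedCorners p e)
    (hx : x ∈ hypCone p e) (hx0 : x ≠ 0) (h0 : eval x p = 0) (hsm : ¬IsSingularPt p x) :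
    ∃ S, IsLift S ∧ S ⊆ hypCone p e ∧
      ∀ᶠ y in 𝓝 x, y ∈ hypCone p e → eval y p = 0 → y ∈ S := by
  classical
  obtain ⟨M, hM0, c, hc, hMc⟩ := quad_penalty (fun v => -eval v (tayl p x 2))
    (fun v => (eval v (tayl p x 1)) ^ 2 + (v ⬝ᵥ x) ^ 2)
    (MvPolynomial.continuous_eval _).neg
    (((MvPolynomial.continuous_eval _).pow 2).add ((by
      unfold dotProduct
      fun_prop : Continuous fun v : ι → ℝ => v ⬝ᵥ x).pow 2))
    (fun t v => by rw [eval_tayl_smul]; ring)
    (fun t v => by rw [eval_tayl_smul, smul_dotProduct, smul_eq_mul]; ring)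
    (fun v => by positivity)
    (fun v hv hs => by
      obtain ⟨h1, h2⟩ := (add_eq_zero_iff_of_nonneg (sq_nonneg _) (sq_nonneg _)).1 hs
      exact neg_pos.2 (smooth_curvature hE hI hx hx0 h0 hsm hv (sq_eq_zero_iff.1 h1)
        (sq_eq_zero_iff.1 h2)))
  set h : MvPolynomial ι ℝ := -shiftPoly p x +
    C M * (shiftPoly p x ^ 2 + dotPoly id x ^ 2) with hh
  have hev : ∀ v, eval v h = -eval (x + v) p + M * (eval (x + v) p ^ 2 + (v ⬝ᵥ x) ^ 2) := by
    intro v
    have e1 : eval v (shiftPoly p x) = eval (x + v) p := by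
      rw [← aeval_eq_eval, ← aeval_eq_eval, aeval_shiftPoly]
      simp [add_comm, Pi.add_def]
    rw [hh]
    simp [e1, eval_dotPoly]
  have hq : ∃ c, 0 < c ∧ ∀ v : ι → ℝ, c * ∑ i, v i ^ 2 ≤ eval v (tayl h 0 2) := by
    refine ⟨c, hc, fun v => le_of_le_of_eq (hMc v) ?_⟩
    have e1 : lineP (0 : ι → ℝ) v (shiftPoly p x) = lineP x v p := Polynomial.funext fun r => by
      rw [lineP_eval, lineP_eval, zero_add, ← aeval_eq_eval, ← aeval_eq_eval, aeval_shiftPoly]
      simp [add_comm, Pi.add_def]
    have hc0 : (lineP x v p).coeff 0 = 0 := by rw [lineP_coeff, eval_tayl_zero, h0]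
    rw [← lineP_coeff h (0 : ι → ℝ) v 2, hh]
    simp only [map_add, map_neg, map_mul, map_pow, e1, lineP_dotPoly, Polynomial.coeff_add,
      Polynomial.coeff_neg]
    rw [show lineP (0 : ι → ℝ) v (C M) = Polynomial.C M by simp [lineP], Polynomial.coeff_C_mul,
      Polynomial.coeff_add, coeff_two_sq hc0, coeff_two_sq (by simp), lineP_coeff,
      lineP_coeff, Polynomial.coeff_C_mul_X]
    simp
  obtain ⟨D, ε₀, hε₀, hJ⟩ := jensen hq
  obtain ⟨δ, hδ, hnear⟩ := Metric.eventually_nhds_iff.1 (smooth_near hE hx h0 hsm)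
  set ε := min ε₀ (δ / 2) with hεdef
  have hε : 0 < ε := lt_min hε₀ (by linarith)
  obtain ⟨S, hSlift, hsound, hcomplete⟩ := exists_moment_lift
    (insert (1 : MvPolynomial ι ℝ) (insert (-h) (Finset.univ.image fun k => C (ε ^ 2) - X k ^ 2)))
    (fun i => C (x i) + X i) (D + 1)
  refine ⟨S, hSlift, fun y hy => ?_, ?_⟩
  · obtain ⟨L, hL, rfl⟩ := hsound y hy
    have hbox : BoxPos L ε (D + 1) := fun f hf =>
      ⟨by simpa using hL 1 (Finset.mem_insert_self _ _) f hf, fun k => hL _ (by simp) f hf⟩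
    have hL1 : 0 ≤ L 1 := by simpa using (hbox 1 (by simp)).1
    rcases hL1.eq_or_lt with hz | hpos
    · have : (fun i => L (C (x i) + X i)) = (0 : ι → ℝ) := funext fun i => by
        rw [map_add, ← mul_one (C (x i)), L_C_mul, ← hz, mean_zero hbox (by omega) hz.symm i]
        simp
      rw [this]
      exact zero_mem hE
    · set a : ι → ℝ := fun i => ((L 1)⁻¹ • L) (X i) with ha
      have h1 : ((L 1)⁻¹ • L) 1 = 1 := by simp [inv_mul_cancel₀ hpos.ne']
      have hbox' := boxPos_smul hbox (inv_nonneg.2 hpos.le)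
      have hle := hJ ε hε (min_le_left _ _) _ h1 (fun f hf => hbox' f (by omega))
      have hneg : ((L 1)⁻¹ • L) h ≤ 0 := by
        have h2 := hL (-h) (by simp) 1 (by simp)
        simp at h2
        exact mul_nonpos_of_nonneg_of_nonpos (inv_nonneg.2 hpos.le) h2
      have ha0 : eval a h ≤ 0 := hle.trans hneg
      rw [hev] at ha0
      have hp : 0 ≤ eval (x + a) p := by
        have : 0 ≤ M * (eval (x + a) p ^ 2 + (a ⬝ᵥ x) ^ 2) := by positivity
        linarith
      have hmem : x + a ∈ hypCone p e := by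
        refine hnear ?_ hp
        rw [dist_eq_norm, add_sub_cancel_left]
        refine (pi_norm_lt_iff hδ).2 fun i => ?_
        have h3 := abs_le_of_sq_le_sq (mean_sq_le h1 hbox' (by omega) i) hε.le
        rw [Real.norm_eq_abs]
        have h4 : ε ≤ δ / 2 := min_le_right _ _
        show |((L 1)⁻¹ • L) (X i)| < δ
        linarith
      have e1 : (fun i => L (C (x i) + X i)) = L 1 • (x + a) := funext fun i => by
        rw [map_add, ← mul_one (C (x i)), L_C_mul]
        simp [ha]
        field_simp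
      rw [e1]
      exact smul_mem hE hmem hpos.le
  · set T : (ι → ℝ) → ℝ := fun y => (y ⬝ᵥ x) / (x ⬝ᵥ x) with hT
    have hxx := dot_self_pos hx0
    have hTc : Continuous T := by
      rw [hT]
      unfold dotProduct
      fun_prop
    have hT1 : T x = 1 := by rw [hT]; simp [div_self hxx.ne']
    have hev1 : ∀ᶠ y in 𝓝 x, 0 < T y :=
      hTc.continuousAt.eventually (lt_mem_nhds (by rw [hT1]; exact one_pos))
    have hev2 : ∀ᶠ y in 𝓝 x, ‖(T y)⁻¹ • y - x‖ < ε := by
      have hc' : ContinuousAt (fun y => ‖(T y)⁻¹ • y - x‖) x :=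
        (((hTc.continuousAt.inv₀ (by rw [hT1]; exact one_ne_zero)).smul continuousAt_id).sub
          continuousAt_const).norm
      refine hc'.eventually_lt continuousAt_const ?_
      simp [hT1, hε]
    filter_upwards [hev1, hev2] with y hy1 hy2 hyK hy0
    set a := (T y)⁻¹ • y - x with ha
    have hax : a ⬝ᵥ x = 0 := by
      rw [ha, sub_dotProduct, smul_dotProduct, hT, smul_eq_mul, inv_div]
      have : y ⬝ᵥ x ≠ 0 := fun h => by simp [hT, h] at hy1
      field_simp
      ring
    have hp0 : eval (x + a) p = 0 := by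
      rw [ha, add_sub_cancel, eval_smul' p hE.1, hy0, mul_zero]
    have h := hcomplete a (T y) hy1.le fun g hg => by
      simp only [Finset.mem_insert, Finset.mem_image, Finset.mem_univ, true_and] at hg
      rcases hg with rfl | rfl | ⟨k, rfl⟩
      · simp
      · rw [map_neg, hev, hp0, hax]
        simp
      · simp only [map_sub, eval_C, map_pow, eval_X, sub_nonneg]
        exact sq_le_sq.2 ((((Real.norm_eq_abs _).symm.trans_le (norm_le_pi_norm a k)).trans
          hy2.le).trans (le_abs_self ε))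
    convert h using 1
    funext i
    simp [ha]
    field_simp

end Vale.Agent.P256
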