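import Vale.Agent.P256.Garding
import Vale.Agent.P256.Corner.Defs

/-!
# P256: translates and restrictions to lines
-/

namespace Vale.Agent.P256

open MvPolynomial

variable {ι : Type}

/-- The translate `v ↦ p (x + v)`. -/
noncomputable def shiftPoly (p : MvPolynomial ι ℝ) (x : ι → ℝ) : MvPolynomial ι ℝ :=
  aeval (fun i => X i + C (x i)) p

theorem tayl_def (p : MvPolynomial ι ℝ) (x : ι → ℝ) (m : ℕ) :
    tayl p x m = homogeneousComponent m (shiftPoly p x) := rfl

theorem tayl_homogeneous (p : MvPolynomial ι ℝ) (x : ι → ℝ) (m : ℕ) :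
    (tayl p x m).IsHomogeneous m :=
  homogeneousComponent_isHomogeneous m _

theorem aeval_shiftPoly {A : Type} [CommRing A] [Algebra ℝ A] (p : MvPolynomial ι ℝ) (x : ι → ℝ)
    (w : ι → A) :
    aeval w (shiftPoly p x) = aeval (fun i => w i + algebraMap ℝ A (x i)) p := by
  rw [shiftPoly, ← AlgHom.comp_apply, comp_aeval]
  simp

theorem aeval_hom {A : Type} [CommRing A] [Algebra ℝ A] {d : ℕ} {q : MvPolynomial ι ℝ}
    (hq : q.IsHomogeneous d) (c : A) (w : ι → A) :
    aeval (fun i => c * w i) q = c ^ d * aeval w q := by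
  conv_lhs => rw [q.as_sum]
  conv_rhs => rw [q.as_sum]
  simp only [map_sum, Finset.mul_sum]
  refine Finset.sum_congr rfl fun m hm => ?_
  have hdeg := support_sum hq hm
  simp only [aeval_monomial, mul_pow, Finsupp.prod, Finset.prod_mul_distrib,
    Finset.prod_pow_eq_pow_sum]
  rw [hdeg]
  ring

theorem aeval_sum_tayl {A : Type} [CommRing A] [Algebra ℝ A] (p : MvPolynomial ι ℝ) (x : ι → ℝ)
    {N : ℕ} (hN : (shiftPoly p x).totalDegree < N) (w : ι → A) :
    aeval (fun i => w i + algebraMap ℝ A (x i)) p =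
      ∑ m ∈ Finset.range N, aeval w (tayl p x m) := by
  rw [← aeval_shiftPoly]
  conv_lhs => rw [← sum_homogeneousComponent (shiftPoly p x)]
  rw [map_sum]
  refine Finset.sum_subset (Finset.range_subset_range.2 hN) fun m _ hm => ?_
  rw [Finset.mem_range, not_lt] at hm
  rw [homogeneousComponent_eq_zero m _ (by omega), map_zero]

/-- The restriction `r ↦ h (a + r v)`. -/
noncomputable def lineP (a v : ι → ℝ) : MvPolynomial ι ℝ →ₐ[ℝ] Polynomial ℝ :=
  aeval fun i => Polynomial.C (a i) + Polynomial.C (v i) * Polynomial.X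

theorem lineP_eval (h : MvPolynomial ι ℝ) (a v : ι → ℝ) (r : ℝ) :
    (lineP a v h).eval r = eval (a + r • v) h := by
  induction h using MvPolynomial.induction_on with
  | C c => simp [lineP]
  | add p q hp hq => simp [hp, hq]
  | mul_X p i hp =>
    simp only [map_mul, Polynomial.eval_mul, hp]
    rw [eval_X]
    congr 1
    simp [lineP]
    ring

theorem lineP_sum (h : MvPolynomial ι ℝ) (a v : ι → ℝ) {N : ℕ}
    (hN : (shiftPoly h a).totalDegree < N) :
    lineP a v h = ∑ m ∈ Finset.range N,
      Polynomial.C (eval v (tayl h a m)) * Polynomial.X ^ m := by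
  have h1 := aeval_sum_tayl (A := Polynomial ℝ) h a hN
    (fun i => Polynomial.X * Polynomial.C (v i))
  have h2 : lineP a v h = aeval (fun i => Polynomial.X * Polynomial.C (v i) +
      algebraMap ℝ (Polynomial ℝ) (a i)) h := by
    rw [lineP]
    congr 2
    funext i
    rw [Polynomial.algebraMap_eq]
    ring
  rw [h2, h1]
  refine Finset.sum_congr rfl fun m _ => ?_
  rw [aeval_hom (tayl_homogeneous h a m), mul_comm]
  congr 1
  rw [← Polynomial.algebraMap_eq]
  exact aeval_algebraMap_apply (B := Polynomial ℝ) v _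

theorem lineP_coeff (h : MvPolynomial ι ℝ) (a v : ι → ℝ) (m : ℕ) :
    (lineP a v h).coeff m = eval v (tayl h a m) := by
  set N := max (shiftPoly h a).totalDegree m + 1 with hN
  rw [lineP_sum h a v (N := N) (by omega), Polynomial.finsetSum_coeff]
  simp only [Polynomial.coeff_C_mul, Polynomial.coeff_X_pow, mul_ite, mul_one, mul_zero]
  rw [Finset.sum_ite_eq, if_pos (Finset.mem_range.2 (by omega))]

theorem eval_tayl_zero (h : MvPolynomial ι ℝ) (a v : ι → ℝ) :
    eval v (tayl h a 0) = eval a h := by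
  rw [← lineP_coeff, Polynomial.coeff_zero_eq_eval_zero, lineP_eval]
  simp

theorem isSingularPt_iff (p : MvPolynomial ι ℝ) (x : ι → ℝ) :
    IsSingularPt p x ↔ eval x p = 0 ∧ tayl p x 1 = 0 := by
  refine and_congr ⟨fun h => ?_, fun h => ?_⟩ Iff.rfl
  · rw [← eval_tayl_zero p x 0, h, map_zero]
  · exact MvPolynomial.funext fun v => by rw [eval_tayl_zero, h, map_zero]

theorem mult_le {p : MvPolynomial ι ℝ} {x : ι → ℝ} {k : ℕ} (hk : IsMult p x k) {m : ℕ}
    (hm : tayl p x m ≠ 0) : k ≤ m :=
  not_lt.1 fun h => hm (hk.1 m h)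

theorem exists_mult {p : MvPolynomial ι ℝ} (hp : p ≠ 0) (x : ι → ℝ) : ∃ k, IsMult p x k := by
  classical
  have h : ∃ m, tayl p x m ≠ 0 := by
    by_contra hcon
    simp only [not_exists, not_not] at hcon
    refine hp (MvPolynomial.funext fun v => ?_)
    have h1 := lineP_eval p x (v - x) 1
    rw [lineP_sum p x (v - x) (Nat.lt_succ_self _)] at h1
    simp [hcon] at h1
    rw [← h1, map_zero]
  exact ⟨Nat.find h, fun m hm => not_not.1 (Nat.find_min h hm), Nat.find_spec h⟩

/-- The translate with indeterminate base point. -/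
noncomputable def shiftU (p : MvPolynomial ι ℝ) : MvPolynomial ι (MvPolynomial ι ℝ) :=
  aeval (fun i => X i + C (X i)) p

theorem shiftU_map (p : MvPolynomial ι ℝ) (x : ι → ℝ) :
    map (eval x) (shiftU p) = shiftPoly p x := by
  induction p using MvPolynomial.induction_on with
  | C c => simp [shiftU, shiftPoly, IsScalarTower.algebraMap_apply ℝ (MvPolynomial ι ℝ)
      (MvPolynomial ι (MvPolynomial ι ℝ))]
  | add p q hp hq =>
    simp only [shiftU, shiftPoly, map_add] at *
    rw [hp, hq]
  | mul_X p i hp =>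
    simp only [shiftU, shiftPoly, map_mul] at *
    rw [hp]
    simp

theorem coeff_shift_continuous (p : MvPolynomial ι ℝ) (g : ι →₀ ℕ) :
    Continuous fun x => coeff g (shiftPoly p x) := by
  simp_rw [← shiftU_map, coeff_map]
  exact MvPolynomial.continuous_eval _

theorem coeff_shift_eq_zero (p : MvPolynomial ι ℝ) (x : ι → ℝ) {g : ι →₀ ℕ}
    (hg : g ∉ (shiftU p).support) : coeff g (shiftPoly p x) = 0 := by
  rw [← shiftU_map, coeff_map, notMem_support_iff.1 hg, map_zero]

end Vale.Agent.P256
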